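import Crest.Agent.R246.H1.Kf

/-!
# Row 246, block H1: the support at a diagonal contact
-/

set_option autoImplicit false
set_option linter.unusedSectionVars false

open MeasureTheory Metric Filter Topology Set Module Asymptotics
open scoped RealInnerProductSpace ENNReal ContDiff Real

noncomputable section

namespace Crest.Agent.R246.H1

variable {E : Type} [NormedAddCommGroup E] [InnerProductSpace ℝ E] [FiniteDimensional ℝ E]

variable {C : Set E} {ψ : E → ℝ}

theorem taylor_three {f : E → ℝ} {x : E} (hf : ContDiffAt ℝ ∞ f x) :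
    (fun y => f y - f x - ⟪gradient f x, y - x⟫ - ⟪hess f x (y - x), y - x⟫ / 2 -
      ⟪fderiv ℝ (hess f) x (y - x) (y - x), y - x⟫ / 6) =o[𝓝 x] fun y => ‖y - x‖ ^ 3 := by
  have a1 := fun y : E => (hasFDerivAt_id (𝕜 := ℝ) y).sub_const x
  have a2 := fun y : E => ((fderiv ℝ (hess f) x).hasFDerivAt.comp y (a1 y)).clm_apply (a1 y)
  have h1 := littleO_succ (n := 1) (x₀ := x)
    (F := fun y => gradient f y - hess f x (y - x) - (2 : ℝ)⁻¹ • fderiv ℝ (hess f) x (y - x) (y - x))
    (F' := fun y => hess f y - hess f x - fderiv ℝ (hess f) x (y - x)) ((eventually_two hf).mono fun y hy => by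
      refine (((hasFDerivAt_gradient hy).sub ((hess f x).hasFDerivAt.comp y (a1 y))).sub
        ((a2 y).const_smul (2 : ℝ)⁻¹)).congr_fderiv (ContinuousLinearMap.ext fun v => ?_)
      simp [(third_symm hf v _ v).1, -map_sub]
      module) (by simpa only [pow_one] using (hasFDerivAt_hess hf).isLittleO.norm_right)
  have h2 := littleO_succ (n := 2) (x₀ := x)
    (F := fun y => f y - ⟪gradient f x, y - x⟫ - ⟪hess f x (y - x), y - x⟫ / 2 -
      ⟪fderiv ℝ (hess f) x (y - x) (y - x), y - x⟫ / 6)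
    (F' := fun y => innerSL ℝ (gradient f y - gradient f x - hess f x (y - x) -
      (2 : ℝ)⁻¹ • fderiv ℝ (hess f) x (y - x) (y - x))) ((eventually_two hf).mono fun y hy => by
      refine ((((hy.differentiableAt two_ne_zero).hasFDerivAt.sub
        ((hasFDerivAt_const (gradient f x) y).inner ℝ (a1 y))).sub
        ((((hess f x).hasFDerivAt.comp y (a1 y)).inner ℝ (a1 y)).mul_const (2 : ℝ)⁻¹)).sub
        (((a2 y).inner ℝ (a1 y)).mul_const (6 : ℝ)⁻¹)).congr_fderiv (ContinuousLinearMap.ext fun v => ?_)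
      have b1 := (third_symm hf (y - x) v (y - x)).2
      have b2 := hess_symm (hf.of_le two_le_infty) v (y - x)
      rw [real_inner_comm _ v] at b1 b2
      rw [innerSL_apply_apply, inner_sub_left, inner_sub_left, inner_sub_left, real_inner_smul_left]
      simp [inner_gradient_left, (third_symm hf v _ v).1, inner_add_left, b1, b2, -map_sub]
      ring) (IsLittleO.of_norm_left (by
        simp only [innerSL_apply_norm]
        exact (h1.congr_left fun y => by simp only [sub_self, map_zero]; module).norm_left))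
  exact h2.congr_left fun y => by simp only [sub_self, inner_zero_right]; ring

theorem third_aux (h : SMC C ψ) {x : E} (hx : x ∈ C) (hx1 : ‖x‖ = 1) {e : E} (he : ⟪gradient ψ x, e⟫ = 0)
    {s : ℝ} (hs : |s| = 1) (hQ : kf C ψ x • e + s • hess ψ x e = 0) : 0 ≤ s * ⟪fderiv ℝ (hess ψ) x e e, e⟫ := by
  have hx0 : x ≠ 0 := by rintro rfl; simp at hx1
  have hE := eik h hx hx0
  obtain ⟨y, M, hy⟩ := exists_curve h hx hx0 he
  replace hy := hy.filter_mono (nhdsWithin_le_nhds (s := Ioi 0))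
  set Q := kf C ψ x • ContinuousLinearMap.id ℝ E + s • hess ψ x with hQd
  have hr : (fun t => y t - (x + t • e)) =O[𝓝[>] 0] fun t : ℝ => t ^ 2 :=
    IsBigO.of_bound M (hy.mono fun t ht => by rw [Real.norm_of_nonneg (sq_nonneg t)]; exact ht.2)
  have l0 : Tendsto (fun t : ℝ => t) (𝓝[>] 0) (𝓝 0) := nhdsWithin_le_nhds
  have hr' := hr.trans_isLittleO ((isLittleO_pow_id one_lt_two).mono nhdsWithin_le_nhds)
  have hO : (fun t => y t - x) =O[𝓝[>] 0] fun t : ℝ => t :=
    (hr'.isBigO.add (IsBigO.of_bound ‖e‖ (f := fun t : ℝ => t • e) (Eventually.of_forall fun t => by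
      rw [norm_smul, mul_comm]))).congr_left fun t => by abel
  have hu : Tendsto (fun t : ℝ => t⁻¹ • (y t - x)) (𝓝[>] 0) (𝓝 e) := by
    have := hr'.tendsto_inv_smul_nhds_zero.add_const e
    rw [zero_add] at this
    refine this.congr' (eventually_mem_nhdsWithin.mono fun t (ht : 0 < t) => ?_)
    simp only [← sub_sub, smul_sub _ (y t - x), inv_smul_smul₀ ht.ne', sub_add_cancel]
  have l1 := (((taylor_three hE.contDiffAt).comp_tendsto (tendsto_sub_nhds_zero_iff.1 (hO.trans_tendsto l0))).trans_isBigO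
    (hO.norm_left.pow 3)).tendsto_div_nhds_zero
  have l2 : (fun t => ⟪Q (y t - (x + t • e)), y t - (x + t • e)⟫) =o[𝓝[>] 0] fun t : ℝ => t ^ 3 :=
    (IsBigO.of_bound' (Eventually.of_forall fun t => (norm_inner_le_norm _ _).trans (le_abs_self _))).trans_isLittleO
      (((((Q.isBigO_comp _ _).trans hr).norm_left).mul_isLittleO hr'.norm_left).congr_right fun t => by ring)
  have c3 : Continuous fun v => ⟪fderiv ℝ (hess ψ) x v v, v⟫ := by fun_prop
  have l3 := (l2.tendsto_div_nhds_zero.const_mul 3).add (((l1.const_mul 6).add ((c3.tendsto e).comp hu)).const_mul s)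
  simp only [mul_zero, zero_add] at l3
  refine ge_of_tendsto l3 ?_
  filter_upwards [hy, self_mem_nhdsWithin] with t ht (ht0 : 0 < t)
  have a1 := le_kf_mul h hx ht.1
  have a2 := le_abs_self (s * ⟪gradient ψ x, y t⟫)
  rw [abs_mul, hs] at a2
  have a3 : Q e = 0 := hQ
  have a4 : ⟪Q (y t - x), e⟫ = 0 := by
    have := congrArg (fun v => ⟪y t - x, v⟫) hQ
    simpa only [hQd, add_apply, smul_apply, ContinuousLinearMap.id_apply, inner_add_left, real_inner_smul_left,
      inner_add_right, inner_smul_right, inner_zero_right, hess_symm hE.contDiffAt_two] using this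
  have a5 : ⟪Q (y t - (x + t • e)), y t - (x + t • e)⟫ =
      kf C ψ x * ‖y t - x‖ ^ 2 + s * ⟪hess ψ x (y t - x), y t - x⟫ := by
    rw [← sub_sub, map_sub, map_smul, a3, smul_zero, sub_zero, inner_sub_right, inner_smul_right, a4, mul_zero,
      sub_zero, hQd, add_apply, smul_apply, smul_apply, inner_add_left, real_inner_smul_left, real_inner_smul_left,
      ContinuousLinearMap.id_apply, real_inner_self_eq_norm_sq]
  simp only [a5, Function.comp, map_smul, smul_apply, real_inner_smul_left, inner_smul_right, (mem_iff h _).1 hx,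
    (mem_iff h _).1 ht.1, inner_sub_right (gradient ψ x), inner_grad_self h hx]
  rw [hx1] at a1
  refine le_of_le_of_eq (b := (3 * (kf C ψ x * ‖y t - x‖ ^ 2) - 6 * (s * ⟪gradient ψ x, y t⟫)) / t ^ 3)
    (div_nonneg (by linarith) (by positivity)) ?_
  field_simp
  ring

/-- third order condition.  Recipe: `G y = k/2 ‖y - x‖² + s (ψ y - ⟪ν, y⟫) ≥ 0` on `C` (`s c = -k`, `le_kf_mul`), `∇G x = 0`,
`hess G x e = 0`.  With `y t` from `exists_curve`: `∇G = o(t)` on `closedBall (x + t e) (M t²)`, so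
`a t := G (x + t e) ≥ -o(t³)` (mean value inequality); `a 0 = a' 0 = a'' 0 = 0`, hence `a''' 0 ≥ 0` (integrate `a''` twice);
apply to `e` and `-e`. -/
theorem third_eq_zero (h : SMC C ψ) {x : E} (hx : x ∈ C) (hx1 : ‖x‖ = 1) (hk : 0 < kf C ψ x) {e : E} {c : ℝ}
    (he : ‖e‖ = 1) (hc : hess ψ x e = c • e) (hck : |c| = kf C ψ x) :
    ⟪fderiv ℝ (hess ψ) x e e, e⟫ = 0 := by
  have hx0 : x ≠ 0 := by rintro rfl; simp at hx1
  have hc0 : c ≠ 0 := abs_pos.1 (hck ▸ hk)
  have h1 : ⟪gradient ψ x, e⟫ = 0 := by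
    have := (eik h hx hx0).inner_hess_grad e
    rw [hc, real_inner_smul_left, real_inner_comm] at this
    exact (mul_eq_zero.1 this).resolve_left hc0
  have hs : |-kf C ψ x / c| = 1 := by rw [abs_div, abs_neg, hck, abs_of_pos hk, div_self hk.ne']
  have h2 : kf C ψ x • e + (-kf C ψ x / c) • hess ψ x e = 0 := by
    rw [hc, smul_smul, div_mul_cancel₀ _ hc0, neg_smul, add_neg_cancel]
  have h3 := third_aux h hx hx1 h1 hs h2
  have h4 := third_aux h hx hx1 (e := -e) (by rw [inner_neg_right, h1, neg_zero]) hs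
    (by rw [map_neg, smul_neg, smul_neg, ← neg_add, h2, neg_zero])
  simp only [map_neg, neg_apply, neg_neg, inner_neg_right, mul_neg, neg_nonneg] at h4
  exact (mul_eq_zero.1 (le_antisymm h4 h3)).resolve_left (abs_pos.1 (hs ▸ one_pos))

theorem trT_log_norm_sq {d : ℕ} (hd : finrank ℝ E = d + 1) {x ν : E} (hx1 : ‖x‖ = 1) (hν : ‖ν‖ = 1)
    (hνx : ⟪ν, x⟫ = 0) : ∃ p Q, Jet (𝓝 x) x (fun y => Real.log (‖y‖ ^ 2)) p Q ∧ trT ν Q = 2 * d - 4 := by
  refine ⟨_, _, (Jet.norm_sq (𝓝 x) x).log le_rfl (by simp [hx1]), ?_⟩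
  simp only [trT_sub, trT_smul, trT_rk, trT_id hν, hd, hx1, norm_smul, inner_smul_right, hνx, Real.norm_ofNat]
  push_cast
  ring

theorem sup_diag (h : SMC C ψ) {d : ℕ} (hd : finrank ℝ E = d + 1) {x : E} (hx : x ∈ C) (hx1 : ‖x‖ = 1)
    (hk : 0 < kf C ψ x) {e : E} {c : ℝ} (he : ‖e‖ = 1) (hc : hess ψ x e = c • e) (hck : |c| = kf C ψ x) :
    Sup C (gradient ψ x) (fun z => Real.log (kf C ψ z)) x ((d : ℝ) - 1 - A2 ψ x) := by
  have hx0 : x ≠ 0 := by rintro rfl; simp at hx1
  have hE := eik h hx hx0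
  have h2 := hE.contDiffAt_two
  have hν := hE.norm_grad
  have hνx := inner_grad_self h hx
  have hc0 : c ≠ 0 := abs_pos.1 (hck ▸ hk)
  have hee : ⟪e, e⟫ = 1 := by rw [real_inner_self_eq_norm_sq, he, one_pow]
  have hνe : ⟪gradient ψ x, e⟫ = 0 := by
    have := hE.inner_hess_grad e
    rw [hc, real_inner_smul_left, real_inner_comm] at this
    exact (mul_eq_zero.1 this).resolve_left hc0
  have hex : ⟪e, x⟫ = 0 := by
    have := hess_symm h2 e x
    rw [hc, real_inner_smul_left, hess_self h hx hx0, inner_zero_right] at this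
    exact (mul_eq_zero.1 this).resolve_left hc0
  set ν := gradient ψ x with hνd
  set L := fderiv ℝ (hess ψ) x e with hL
  have hLs : ∀ v w, ⟪L v, w⟫ = ⟪v, L w⟫ := fun v w => (third_symm hE.contDiffAt e v w).2
  have hLν : L ν = -(c ^ 2) • e := by
    rw [hL, hνd, hE.third_grad, hc, map_smul, hc, smul_smul, ← sq, neg_smul]
  have hL0 : ⟪L e, e⟫ = 0 := third_eq_zero h hx hx1 hk he hc hck
  have htr := two_mul_le_trc hLs he hL0
  obtain ⟨p₁, Q₁, J₁, t₁⟩ := trT_log_norm_sq hd hx1 hν hνx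
  -- the jet of `u = ‖H e‖²`
  have hW : HasFDerivAt (fun y => hess ψ y e - c • e) L x :=
    ((hasFDerivAt_hess_apply hE.contDiffAt e).sub_const _).congr_fderiv
      (ContinuousLinearMap.ext fun v => (third_symm hE.contDiffAt v e v).1)
  have hs : ContDiffAt ℝ 2 (fun y => ⟪e, hess ψ y e⟫) x :=
    ((contDiffAt_dv (contDiffAt_dv hE.contDiffAt e) e).of_le two_le_infty).congr_of_eventuallyEq
      (inner_hess_eventually hE.contDiffAt e)
  have hgs : gradient (fun y => ⟪e, hess ψ y e⟫) x = L e := by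
    rw [(inner_hess_eventually hE.contDiffAt e).gradient_eq, gradient_dv_dv hE.contDiffAt]
  have eu : ∀ y, ‖hess ψ y e - c • e‖ ^ 2 + 2 * c * ⟪e, hess ψ y e⟫ - c ^ 2 = ‖hess ψ y e‖ ^ 2 := fun y => by
    rw [norm_sub_sq_real, inner_smul_right, real_inner_comm, norm_smul, he, mul_one, Real.norm_eq_abs, sq_abs]
    ring
  have Ju := (((Jet.norm_sq_of_hasFDerivAt hW (by simp [hc]) hLs).add
    ((Jet.of_contDiffAt hs).const_mul (2 * c))).sub (Jet.const _ x (c ^ 2))).congr
    (Eventually.of_forall eu) (eu x)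
  have hu0 : ‖hess ψ x e‖ ^ 2 = c ^ 2 := by rw [hc, norm_smul, he, mul_one, Real.norm_eq_abs, sq_abs]
  have Jlu := Ju.log le_rfl (by rw [hu0]; positivity)
  -- the jet of `w = ‖y‖² |e^T|²`
  have hξ : HasGradientAt (fun y => ⟪e, y⟫) e x := by
    rw [hasGradientAt_iff_hasFDerivAt]
    exact (innerSL ℝ e).hasFDerivAt
  have Jw := ((Jet.norm_sq (𝓝 x) x).sub (Jet.sq_of_hasGradientAt hξ hex)).sub
    ((Jet.sq_of_hasGradientAt (hasGradientAt_inner_gradient h2 e) (by rw [real_inner_comm]; exact hνe)).mul_tendsto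
      (a := fun y => ‖y‖ ^ 2) (a₀ := ‖x‖ ^ 2) (by rw [real_inner_comm, ← hνd, hνe]; simp)
      ((continuous_norm.pow 2).tendsto x))
  have hw0 : ‖x‖ ^ 2 - ⟪e, x⟫ ^ 2 - ⟪e, gradient ψ x⟫ ^ 2 * ‖x‖ ^ 2 = 1 := by
    rw [hex, real_inner_comm, ← hνd, hνe, hx1]; norm_num
  have Jlw := Jw.log le_rfl (by rw [hw0]; exact one_ne_zero)
  rw [hw0] at Jlw
  rw [hu0] at Jlu
  refine ⟨_, _, _, ((J₁.add (Jlu.const_mul (1 / 2))).sub (Jlw.const_mul (1 / 2))).mono nhdsWithin_le_nhds,
    ?_, ?_, ?_⟩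
  · rw [hw0, hu0]
    simp only [hx1, one_pow, Real.log_one, ← hck, Real.log_abs, Real.log_pow]
    push_cast
    ring
  · have e1 := (Ju.tendsto le_rfl).eventually (lt_mem_nhds (show 0 < ‖hess ψ x e‖ ^ 2 by rw [hu0]; positivity))
    have e2 := (Jw.tendsto le_rfl).eventually (lt_mem_nhds
      (show 0 < ‖x‖ ^ 2 - ⟪e, x⟫ ^ 2 - ⟪e, gradient ψ x⟫ ^ 2 * ‖x‖ ^ 2 by rw [hw0]; exact one_pos))
    filter_upwards [self_mem_nhdsWithin, nhdsWithin_le_nhds e1, nhdsWithin_le_nhds e2,
      nhdsWithin_le_nhds (isOpen_ne.mem_nhds hx0)] with y hy a1 a2 hy0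
    have a3 := norm_hess_sq_le h hy hy0 e
    rw [he, one_pow, mul_one, mul_comm (‖y‖ ^ 2)] at a3
    have hn : 0 < ‖y‖ := norm_pos_iff.2 hy0
    have a4 : 0 < ‖y‖ ^ 4 * ‖hess ψ y e‖ ^ 2 := by positivity
    have a5 : kf C ψ y ^ 2 ≠ 0 := fun h0 => by
      rw [h0, zero_mul] at a3
      exact absurd a4 (not_lt.2 a3)
    have a6 := Real.log_le_log a4 a3
    rw [Real.log_mul (by positivity) a1.ne', Real.log_mul a5 a2.ne', Real.log_pow, Real.log_pow 
      (kf C ψ y)] at a6
    rw [Real.log_pow ‖y‖]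
    push_cast at a6 ⊢
    linarith
  · have s1 := simons h hx hx0 hνe
    have s2 : trT ν (L ∘L L) = trc (L ∘L L) - c ^ 4 := by
      rw [trT, ContinuousLinearMap.comp_apply, ← hLs, hLν, real_inner_smul_left, inner_smul_right, hee]
      ring
    have s3 : ⟪ν, L e⟫ = -c ^ 2 := by rw [← hLs, hLν, real_inner_smul_left, hee, mul_one]
    simp only [hc, map_smul, inner_smul_right, real_inner_smul_left, hee, ← hνd] at s1
    simp only [trT_sub, trT_add, trT_smul, trT_rk, trT_id hν, t₁, s1, s2, hgs, hc, hd,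
      zero_add, sub_zero, norm_smul, inner_smul_right, s3, hνe, hνx, he, hx1, A2, Real.norm_eq_abs, mul_pow,
      sq_abs]
    have s4 : 0 ≤ (trc (L ∘L L) - 2 * ‖L e‖ ^ 2) / c ^ 2 := div_nonneg (by linarith) (sq_nonneg c)
    push_cast
    refine le_of_sub_nonneg (s4.trans (le_of_eq ?_))
    field_simp
    ring

end Crest.Agent.R246.H1
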