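import Crest.Agent.R246.H1.Mom
import Crest.Agent.R246.H1.Polar

/-!
# Row 246, block H1: integrating a differential inequality that holds in the sense of supports
-/

set_option autoImplicit false
set_option linter.unusedSectionVars false

open MeasureTheory Metric Filter Topology Set Module Asymptotics
open scoped RealInnerProductSpace ENNReal ContDiff Real

noncomputable section

namespace Crest.Agent.R246.H1

variable {E : Type} [NormedAddCommGroup E] [InnerProductSpace ℝ E] [FiniteDimensional ℝ E]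
  [MeasurableSpace E] [BorelSpace E]

namespace Ctx
variable {d : ℕ} {C : Set E} {ψ : E → ℝ}

theorem lower_aux (h : Ctx d C ψ) : ∃ K : ℝ, 0 ≤ K ∧ ∀ {g : E → ℝ} (_ : Measurable g) {M : ℝ} (_ : ∀ y, |g y| ≤ M)
    (x p : E) (Q : E →L[ℝ] E) {κ η L : ℝ}, 0 ≤ κ → 0 ≤ η → 0 ≤ L →
    (∀ y ∈ C, y ≠ 0 → ⟪p, y - x⟫ + ⟪Q (y - x), y - x⟫ / 2 -
      ⟪gradient ψ y, y - x⟫ * ⟪gradient ψ y, p + (2 : ℝ)⁻¹ • Q (y - x)⟫ -
        (κ + η * ‖y - x‖ ^ 2 + L * ‖y - x‖ ^ 4) ≤ g y - g x) → ∀ r > (0 : ℝ),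
    r ^ 2 * (∫ y, gk d x r y * (trT (gradient ψ y) Q / 2) ∂ar d C) - K * (κ + η * r ^ 2 + L * r ^ 4) ≤
      ∫ y, gk d x r y * (g y - g x) ∂ar d C := by
  obtain ⟨K₂, h20, h2⟩ := h.moment_le 2
  obtain ⟨K₄, h40, h4⟩ := h.moment_le 4
  refine ⟨|Th d C| + K₂ + K₄, by positivity, fun {g} hg {M} hM x p Q {κ η L} hκ hη hL H r hr => ?_⟩
  obtain ⟨m1, m2⟩ := h.moment x hr p Q
  have i0 := (h.integ x hr).const_mul κ
  have i2 := (h2 x r hr).1.const_mul η
  have i4 := (h4 x r hr).1.const_mul L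
  have a1 := integral_mono_ae (m1.sub ((i0.add i2).add i4)) (h.integrable_of_le x hr (hg.sub_const (g x)) (b := 0)
    (a := 2 * M) fun y _ _ => by linarith [abs_sub (g y) (g x), hM y, hM x]) (h.ae_mem.mono fun y hy => by
      have := mul_le_mul_of_nonneg_left (H y hy.1 hy.2) (C1.gk_pos d x hr y).le
      simp only [Pi.sub_apply, Pi.add_apply]
      linarith)
  rw [integral_sub' m1 ((i0.add i2).add i4), integral_add' (i0.add i2) i4, integral_add' i0 i2, m2,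
    integral_const_mul, integral_const_mul, integral_const_mul] at a1
  have a2 := mul_le_mul_of_nonneg_left ((h.upper x hr).trans (le_abs_self _)) hκ
  rw [th] at a2
  have a3 := mul_nonneg hη (sq_nonneg r)
  have a4 : 0 ≤ L * r ^ 4 := by positivity
  nlinarith [mul_le_mul_of_nonneg_left (h2 x r hr).2 hη, mul_le_mul_of_nonneg_left (h4 x r hr).2 hL,
    mul_nonneg (abs_nonneg (Th d C)) (add_nonneg a3 a4), mul_nonneg h20 (add_nonneg hκ a4),
    mul_nonneg h40 (add_nonneg hκ a3)]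

theorem far {ρ s A : ℝ} (hρ : 0 < ρ) (hs : ρ ≤ s) (hA : 0 ≤ A) (k : ℕ) : A ≤ A / ρ ^ k * s ^ k := by
  rw [div_mul_eq_mul_div, le_div_iff₀ (by positivity)]
  gcongr

/-- Recipe: `g y - g x ≥ -η + ⟪p, y - x⟫ - K' ‖y - x‖²` on all of `C` (`g` is bounded), `moment` with `Q = 0`, `height_le`,
`moment_le 2`, let `η → 0`. -/
theorem lower_unif (h : Ctx d C ψ) {g : E → ℝ} (hg : Measurable g) {M : ℝ} (hM : ∀ y, |g y| ≤ M)
    (hs : Semi C g) : ∃ K : ℝ, ∀ x ∈ C, ‖x‖ = 1 → ∀ r > (0 : ℝ),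
      -K * r ^ 2 ≤ ∫ y, gk d x r y * (g y - g x) ∂ar d C := by
  obtain ⟨K₀, hK₀, H⟩ := h.lower_aux
  obtain ⟨K₁, hK₁, H₁⟩ := h.height_le
  obtain ⟨K, ρ, hρ, hs⟩ := hs
  have hM0 : 0 ≤ M := (abs_nonneg _).trans (hM 0)
  refine ⟨K₀ * (K₁ * |K| + (|K| + |K| / ρ ^ 1 + 2 * M / ρ ^ 2)), fun x hx hx1 r hr =>
    le_of_forall_pos_le_add fun η hη => ?_⟩
  obtain ⟨p, hp, hp'⟩ := hs x hx hx1 (η / (K₀ + 1)) (by positivity)
  replace hp := hp.trans (le_abs_self K)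
  have a1 := H hg hM x p 0 (κ := η / (K₀ + 1)) (η := K₁ * |K| + (|K| + |K| / ρ ^ 1 + 2 * M / ρ ^ 2)) (L := 0)
    (by positivity) (by positivity) le_rfl (fun y hy hy0 => by
      have b1 := abs_real_inner_le_norm (gradient ψ y) p
      rw [(eik h.smc hy hy0).norm_grad, one_mul] at b1
      have b2 := mul_le_mul (H₁ x hx hx1 y hy hy0) (b1.trans hp) (abs_nonneg _) (by positivity)
      rw [← abs_mul] at b2
      have b3 : 0 ≤ |K| / ρ ^ 1 * ‖y - x‖ ^ 2 := by positivity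
      have b4 : 0 ≤ 2 * M / ρ ^ 2 * ‖y - x‖ ^ 2 := by positivity
      simp only [zero_apply, smul_zero, add_zero, inner_zero_left, zero_div, zero_mul]
      rcases lt_or_ge ‖y - x‖ ρ with h1 | h1
      · linarith [hp' y hy h1, neg_abs_le (⟪gradient ψ y, y - x⟫ * ⟪gradient ψ y, p⟫),
          mul_le_mul_of_nonneg_right (le_abs_self K) (sq_nonneg ‖y - x‖)]
      · have b5 := mul_le_mul_of_nonneg_right (hp.trans (far hρ h1 (abs_nonneg K) 1)) (norm_nonneg (y - x))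
        have b6 : 0 ≤ η / (K₀ + 1) := by positivity
        linarith [neg_abs_le (⟪gradient ψ y, y - x⟫ * ⟪gradient ψ y, p⟫), far hρ h1 (mul_nonneg two_pos.le hM0) 2,
          real_inner_le_norm p (y - x), abs_le.1 (hM y), abs_le.1 (hM x), mul_nonneg (abs_nonneg K) (sq_nonneg ‖y - x‖)])
    r hr
  have a2 : K₀ * (η / (K₀ + 1)) ≤ η := by
    rw [← mul_div_assoc, div_le_iff₀ (by positivity)]
    linarith
  simp only [trT_zero, zero_div, mul_zero, integral_zero] at a1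
  linarith

/-- Recipe: subtract `⟪p, ν⟫ ψ` from the support (jet of `ψ`, `trT ν (hess ψ x) = 0`) so that `p ⊥ ν x`;
`g y - g x ≥ ⟪p,δ⟫ + ⟪Qδ,δ⟫/2 - η‖δ‖² - K_η‖δ‖⁴` on `C`; `moment`, `tendsto_avg`, `height_le`,
`|⟪ν y, p + Qδ/2⟫| ≤ η + K_η ‖δ‖²`, `moment_le 2, 4`. -/
theorem lower_lim (h : Ctx d C ψ) {g : E → ℝ} (hg : Measurable g) {M : ℝ} (hM : ∀ y, |g y| ≤ M)
    {x : E} (hx : x ∈ C) (hx1 : ‖x‖ = 1) {c : ℝ} (hs : Sup C (gradient ψ x) g x c) {ε : ℝ} (hε : 0 < ε) :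
    ∀ᶠ r in 𝓝[>] (0 : ℝ), (c / 2 - ε) * r ^ 2 ≤ ∫ y, gk d x r y * (g y - g x) ∂ar d C := by
  obtain ⟨K₀, hK₀, H⟩ := h.lower_aux
  obtain ⟨K₁, hK₁, H₁⟩ := h.height_le
  have hM0 : 0 ≤ M := (abs_nonneg _).trans (hM 0)
  have hx0 : x ≠ 0 := by rintro rfl; simp at hx1
  have hE := eik h.smc hx hx0
  have hν : Tendsto (gradient ψ) (𝓝[C] x) (𝓝 (gradient ψ x)) :=
    (contDiffAt_gradient hE.contDiffAt).continuousAt.tendsto.mono_left nhdsWithin_le_nhds
  obtain ⟨φ, p, Q, hJ, h0, hle, hc, hp⟩ : ∃ (φ : E → ℝ) (p : E) (Q : E →L[ℝ] E), Jet (𝓝[C] x) x φ p Q ∧ φ x = g x ∧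
      (∀ᶠ y in 𝓝[C] x, φ y ≤ g y) ∧ c ≤ trT (gradient ψ x) Q ∧ ⟪gradient ψ x, p⟫ = 0 := by
    obtain ⟨φ, p, Q, hJ, h0, hle, hc⟩ := hs
    refine ⟨φ, _, _, (hJ.sub (((Jet.of_contDiffAt hE.contDiffAt_two).mono nhdsWithin_le_nhds).const_mul
      ⟪gradient ψ x, p⟫)).congr (eventually_nhdsWithin_of_forall fun y hy => by simp [(mem_iff h.smc y).1 hy])
      (by simp [(mem_iff h.smc x).1 hx]), h0, hle, ?_, ?_⟩
    · have : trc (hess ψ x) = 0 := h.smc.minimal x hx hx0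
      rw [trT_sub, trT_smul]
      simpa [trT, this, hE.hess_grad] using hc
    · rw [inner_sub_right, inner_smul_right, real_inner_self_eq_norm_sq, hE.norm_grad, one_pow, mul_one, sub_self]
  obtain ⟨η, hη, hηε⟩ : ∃ η : ℝ, 0 < η ∧ K₀ * (η + K₁ * η) ≤ ε / 3 :=
    ⟨ε / 3 / (K₀ * (1 + K₁) + 1), by positivity, by
      rw [← one_add_mul, ← mul_assoc, ← mul_div_assoc, div_le_iff₀ (by positivity)]
      linarith⟩
  have l1 : Tendsto (fun y => |⟪gradient ψ y, p + (2 : ℝ)⁻¹ • Q (y - x)⟫|) (𝓝[C] x) (𝓝 0) := by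
    have : Tendsto (fun y => p + (2 : ℝ)⁻¹ • Q (y - x)) (𝓝 x) (𝓝 p) := Continuous.tendsto' (by fun_prop) _ _ (by simp)
    simpa [hp] using (hν.inner (𝕜 := ℝ) (this.mono_left nhdsWithin_le_nhds)).abs
  obtain ⟨ρ, hρ, hρ'⟩ := Metric.eventually_nhds_iff.1 (eventually_nhdsWithin_iff.1
    (hle.and ((IsLittleO.bound hJ hη).and (l1.eventually (gt_mem_nhds hη)))))
  set L := 2 * ‖p‖ / ρ ^ 3 + ‖Q‖ / ρ ^ 2 + 2 * M / ρ ^ 4 with hL
  have a1 := H hg hM x p Q (κ := 0) (η := η + K₁ * η) (L := L) le_rfl (by positivity) (by positivity)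
    (fun y hy hy0 => by
      rcases lt_or_ge ‖y - x‖ ρ with h1 | h1
      · obtain ⟨b1, b2, b3⟩ := hρ' (by rwa [dist_eq_norm]) hy
        have b4 := mul_le_mul (H₁ x hx hx1 y hy hy0) b3.le (abs_nonneg _) (by positivity)
        rw [← abs_mul] at b4
        rw [Real.norm_eq_abs, Real.norm_of_nonneg (sq_nonneg _), abs_le] at b2
        have b5 : 0 ≤ L * ‖y - x‖ ^ 4 := by positivity
        linarith [(abs_le.1 b4).1, b2.1]
      · have b1 := (le_abs_self _).trans (abs_quad_le (eik h.smc hy hy0).norm_grad p (y - x) Q)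
        have b2 := mul_le_mul_of_nonneg_right (far hρ h1 (mul_nonneg two_pos.le (norm_nonneg p)) 3) (norm_nonneg (y - x))
        have b3 := mul_le_mul_of_nonneg_right (far hρ h1 (norm_nonneg Q) 2) (sq_nonneg ‖y - x‖)
        have b4 : 0 ≤ (η + K₁ * η) * ‖y - x‖ ^ 2 := by positivity
        rw [hL]
        linarith [far hρ h1 (mul_nonneg two_pos.le hM0) 4, abs_le.1 (hM y), abs_le.1 (hM x)])
  have l2 := h.tendsto_avg hx hx0 (h.integrable_trT Q).1 (h.integrable_trT Q).2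
    (((hν.inner (𝕜 := ℝ) ((Q.continuous.tendsto _).comp hν)).const_sub _).div_const 2)
  have l3 : Tendsto (fun r : ℝ => K₀ * L * r ^ 2) (𝓝[>] 0) (𝓝 0) :=
    Tendsto.mono_left (Continuous.tendsto' (by fun_prop) _ _ (by simp)) nhdsWithin_le_nhds
  filter_upwards [l2.eventually (lt_mem_nhds (a := c / 2 - ε / 3) (by linarith)),
    l3.eventually (gt_mem_nhds (show 0 < ε / 3 by positivity)), self_mem_nhdsWithin] with r b1 b2 (hr : 0 < r)
  nlinarith [a1 r hr, mul_le_mul_of_nonneg_right b1.le (sq_nonneg r), mul_le_mul_of_nonneg_right b2.le (sq_nonneg r),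
    mul_le_mul_of_nonneg_right hηε (sq_nonneg r)]

/-- Recipe: `F_j x = r_j⁻² ∫ gk d x̂ r_j (g - g x)`, `∫ gk d 0 1 · F_j = 0` (`integral_symm`), dominated convergence for
`min (F_j) (f/2) → f/2`. -/
theorem integrate_aux (h : Ctx d C ψ) {g f : E → ℝ} (hg : Measurable g) {M : ℝ} (hM : ∀ y, |g y| ≤ M)
    (hg0 : Hom0 g) (hs : Semi C g) (hf0 : Hom0 f) (hf : ContinuousOn f (C \ {0}))
    (hsup : ∀ x ∈ C, ‖x‖ = 1 → Sup C (gradient ψ x) g x (f x)) :
    Integrable (fun y => gk d 0 1 y * f y) (ar d C) ∧ ∫ y, gk d 0 1 y * f y ∂ar d C ≤ 0 := by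
  obtain ⟨K, hK⟩ := h.lower_unif hg hM hs
  have := h.sigmaFinite
  have hCm : MeasurableSet (C \ {0}) := h.smc.closed.measurableSet.diff (measurableSet_singleton 0)
  have hae : ∀ᵐ y ∂ar d C, y ∈ C \ {0} := h.ae_mem.mono fun y hy => ⟨hy.1, hy.2⟩
  have hfm : AEStronglyMeasurable f (ar d C) := by
    rw [← Measure.restrict_eq_self_of_ae_mem hae]
    exact hf.aestronglyMeasurable hCm
  have hN : ∀ y ∈ C, y ≠ 0 → ‖y‖⁻¹ • y ∈ C ∧ ‖‖y‖⁻¹ • y‖ = 1 := fun y hy hy0 =>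
    ⟨h.smc.smul_mem _ (inv_pos.2 (norm_pos_iff.2 hy0)) y hy, norm_smul_inv_norm hy0⟩
  obtain ⟨B, hB⟩ : ∃ B : ℝ, ∀ y ∈ C, y ≠ 0 → |f y| ≤ B := by
    have hc : IsCompact (C ∩ sphere 0 1) := (isCompact_sphere 0 1).inter_left h.smc.closed
    obtain ⟨B, hB⟩ := hc.exists_bound_of_continuousOn
      (hf.mono fun x hx => ⟨hx.1, by rintro rfl; simpa using hx.2⟩)
    refine ⟨B, fun y hy hy0 => ?_⟩
    have := hB (‖y‖⁻¹ • y) ⟨(hN y hy hy0).1, mem_sphere_zero_iff_norm.2 (hN y hy hy0).2⟩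
    rwa [hf0 _ (inv_pos.2 (norm_pos_iff.2 hy0)), Real.norm_eq_abs] at this
  have hI : Integrable (fun y => gk d 0 1 y * f y) (ar d C) :=
    (h.integ 0 one_pos).mul_bdd hfm (h.ae_mem.mono fun y hy => hB y hy.1 hy.2)
  refine ⟨hI, ?_⟩
  obtain ⟨r, hr0, hrl⟩ : ∃ r : ℕ → ℝ, (∀ j, 0 < r j) ∧ Tendsto r atTop (𝓝[>] 0) :=
    ⟨fun j => 1 / ((j : ℝ) + 1), fun j => Nat.one_div_pos_of_nat, tendsto_nhdsWithin_iff.2
      ⟨tendsto_one_div_add_atTop_nhds_zero_nat, Eventually.of_forall fun j => mem_Ioi.2 Nat.one_div_pos_of_nat⟩⟩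
  set F : ℕ → E → ℝ := fun j x =>
    (r j ^ 2)⁻¹ * ∫ y, gk d (‖x‖⁻¹ • x) (r j) y * (g y - g x) ∂ar d C with hFd
  have hF : ∀ j, Integrable (fun x => gk d 0 1 x * F j x) (ar d C) ∧
      ∫ x, gk d 0 1 x * F j x ∂ar d C = 0 := fun j => by
    obtain ⟨h1, h2⟩ := integral_symm h.dpos h.zero h.scal (fun p r hr => h.integ p hr)
      (fun p r hr => h.upper p hr) (hr0 j) hg hg0 hM
    have e : (fun x => gk d 0 1 x * F j x) = fun x => (r j ^ 2)⁻¹ *
        (gk d 0 1 x * ∫ y, gk d (‖x‖⁻¹ • x) (r j) y * (g y - g x) ∂ar d C) :=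
      funext fun x => mul_left_comm _ _ _
    rw [e]
    exact ⟨h1.const_mul _, by rw [integral_const_mul, h2, mul_zero]⟩
  have hG : ∀ j, Integrable (fun x => gk d 0 1 x * min (F j x) (f x / 2)) (ar d C) := fun j =>
    ((hF j).1.inf (hI.div_const 2)).congr (ae_of_all _ fun x => by
      beta_reduce
      rw [mul_min_of_nonneg _ _ (C1.gk_pos d 0 one_pos x).le, ← mul_div_assoc]; rfl)
  have hlim := tendsto_integral_of_dominated_convergence (μ := ar d C)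
    (F := fun j x => gk d 0 1 x * min (F j x) (f x / 2)) (f := fun x => gk d 0 1 x * (f x / 2))
    (fun x => gk d 0 1 x * (|K| + B)) (fun j => (hG j).1) ((h.integ 0 one_pos).mul_const _) (fun j => ?_) ?_
  · have h1 : ∫ x, gk d 0 1 x * (f x / 2) ∂ar d C ≤ 0 := le_of_tendsto' hlim fun j => by
      rw [← (hF j).2]
      exact integral_mono (hG j) (hF j).1 fun x =>
        mul_le_mul_of_nonneg_left (min_le_left _ _) (C1.gk_pos d 0 one_pos x).le
    simp only [← mul_div_assoc, integral_div] at h1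
    linarith
  · filter_upwards [h.ae_mem] with x hx
    rw [norm_mul, Real.norm_of_nonneg (C1.gk_pos d 0 one_pos x).le, Real.norm_eq_abs]
    refine mul_le_mul_of_nonneg_left ?_ (C1.gk_pos d 0 one_pos x).le
    have h1 := hK _ (hN x hx.1 hx.2).1 (hN x hx.1 hx.2).2 (r j) (hr0 j)
    rw [hg0 _ (inv_pos.2 (norm_pos_iff.2 hx.2))] at h1
    have h2 : -K ≤ F j x := by
      rw [hFd, le_inv_mul_iff₀ (pow_pos (hr0 j) 2), mul_comm]
      exact h1
    have h3 := abs_le.1 (hB x hx.1 hx.2)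
    have h4 := le_abs_self K
    have h5 := abs_nonneg K
    refine abs_le.2 ⟨le_min (by linarith) (by linarith), (min_le_right _ _).trans (by linarith)⟩
  · filter_upwards [h.ae_mem] with x hx
    refine Tendsto.const_mul _ (tendsto_order.2 ⟨fun a ha => ?_, fun a ha =>
      Eventually.of_forall fun j => (min_le_right _ _).trans_lt ha⟩)
    have h1 := h.lower_lim hg hM (hN x hx.1 hx.2).1 (hN x hx.1 hx.2).2
      (hsup _ (hN x hx.1 hx.2).1 (hN x hx.1 hx.2).2) (ε := (f x / 2 - a) / 2) (by linarith)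
    rw [hg0 _ (inv_pos.2 (norm_pos_iff.2 hx.2)), hf0 _ (inv_pos.2 (norm_pos_iff.2 hx.2))] at h1
    filter_upwards [hrl.eventually h1] with j hj
    refine lt_min (lt_of_lt_of_le (b := f x / 2 - (f x / 2 - a) / 2) (by linarith) ?_) ha
    rw [hFd, le_inv_mul_iff₀ (pow_pos (hr0 j) 2), mul_comm]
    exact hj

/-- replace `g` by `(C \ {0}).indicator g` -/
theorem integrate (h : Ctx d C ψ) {g f : E → ℝ} (hg : ContinuousOn g (C \ {0})) {M : ℝ}
    (hM : ∀ y ∈ C, y ≠ 0 → |g y| ≤ M) (hg0 : Hom0 g) (hs : Semi C g) (hf0 : Hom0 f)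
    (hf : ContinuousOn f (C \ {0})) (hsup : ∀ x ∈ C, ‖x‖ = 1 → Sup C (gradient ψ x) g x (f x)) :
    Integrable (fun y => gk d 0 1 y * f y) (ar d C) ∧ ∫ y, gk d 0 1 y * f y ∂ar d C ≤ 0 := by
  classical
  have hCm : MeasurableSet (C \ {0}) := h.smc.closed.measurableSet.diff (measurableSet_singleton 0)
  have hne : ∀ x : E, ‖x‖ = 1 → x ≠ 0 := fun x hx h0 => by simp [h0] at hx
  refine h.integrate_aux (g := (C \ {0}).indicator g) (M := |M|) ?_ (fun y => ?_) (fun t ht y => ?_) ?_ hf0 hf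
    fun x hx hx1 => ?_
  · rw [← piecewise_eq_indicator]
    exact hg.measurable_piecewise continuousOn_const hCm
  · by_cases hy : y ∈ C \ {0}
    · rw [indicator_of_mem hy]
      exact (hM y hy.1 hy.2).trans (le_abs_self M)
    · rw [indicator_of_notMem hy, abs_zero]
      exact abs_nonneg M
  · by_cases hy : y ∈ C \ {0}
    · rw [indicator_of_mem hy, indicator_of_mem, hg0 t ht]
      exact ⟨h.smc.smul_mem t ht y hy.1, smul_ne_zero ht.ne' hy.2⟩
    · rw [indicator_of_notMem hy, indicator_of_notMem]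
      refine fun h1 => hy ⟨?_, fun h2 => h1.2 ?_⟩
      · simpa [ht.ne'] using h.smc.smul_mem _ (inv_pos.2 ht) _ h1.1
      · rw [mem_singleton_iff.1 h2, smul_zero]; rfl
  · obtain ⟨K, ρ, hρ, hs⟩ := hs
    refine ⟨K, min ρ 1, lt_min hρ one_pos, fun x hx hx1 η hη => ?_⟩
    obtain ⟨p, hp, hp'⟩ := hs x hx hx1 η hη
    refine ⟨p, hp, fun y hy hyx => ?_⟩
    have hy0 : y ≠ 0 := by
      rintro rfl
      rw [zero_sub, norm_neg, hx1] at hyx
      exact (lt_min_iff.1 hyx).2.false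
    rw [indicator_of_mem (show x ∈ C \ {0} from ⟨hx, hne x hx1⟩),
      indicator_of_mem (show y ∈ C \ {0} from ⟨hy, hy0⟩)]
    exact hp' y hy (lt_min_iff.1 hyx).1
  · obtain ⟨φ, p, Q, h1, h2, h3, h4⟩ := hsup x hx hx1
    refine ⟨φ, p, Q, h1, ?_, ?_, h4⟩
    · rw [indicator_of_mem (show x ∈ C \ {0} from ⟨hx, hne x hx1⟩), h2]
    · filter_upwards [h3, self_mem_nhdsWithin, nhdsWithin_le_nhds (isOpen_ne.mem_nhds (hne x hx1))]
        with y h5 hy hy0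
      rwa [indicator_of_mem (show y ∈ C \ {0} from ⟨hy, hy0⟩)]

end Ctx

end Crest.Agent.R246.H1
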