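import Crest.Agent.R246.H1.Calc
import Crest.Agent.R203.AFlow

/-!
# Row 246, block H1: the two-point function and the curvature `kf` of the largest touching ball
-/

set_option autoImplicit false
set_option linter.unusedSectionVars false

open MeasureTheory Metric Filter Topology Set Module Asymptotics
open scoped RealInnerProductSpace ENNReal ContDiff Real

noncomputable section

namespace Crest.Agent.R246.H1

variable {E : Type} [NormedAddCommGroup E] [InnerProductSpace ℝ E] [FiniteDimensional ℝ E]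

/-- two-point function -/
def Zf (ψ : E → ℝ) (x y : E) : ℝ := 2 * ‖x‖ * |⟪gradient ψ x, y⟫| / ‖y - x‖ ^ 2

/-- curvature of the largest ball touching the link at `x/|x|` (from either side) -/
def kf (C : Set E) (ψ : E → ℝ) (x : E) : ℝ := sSup (Zf ψ x '' C)

/-- Hadamard's lemma.  Recipe: `F₁ (t, b) = ∫₀¹ ∂ₜF (θ t, b) dθ`, `R203.contDiff_param_integral`, FTC. -/
theorem exists_hadamard {B B' : Type} [NormedAddCommGroup B] [NormedSpace ℝ B] [FiniteDimensional ℝ B]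
    [NormedAddCommGroup B'] [NormedSpace ℝ B'] [CompleteSpace B'] {F : ℝ × B → B'} (hF : ContDiff ℝ ∞ F) :
    ∃ F₁ : ℝ × B → B', ContDiff ℝ ∞ F₁ ∧ (∀ t b, F (t, b) - F (0, b) = t • F₁ (t, b)) ∧
      ∀ b, HasDerivAt (fun t => F (t, b)) (F₁ (0, b)) 0 := by
  have h1 : ContDiff ℝ ∞ fun q : ℝ × ℝ × B => fderiv ℝ F (q.1 * q.2.1, q.2.2) (1, 0) :=
    ((hF.fderiv_right (m := ∞) le_rfl).comp (by fun_prop)).clm_apply contDiff_const
  have h2 : ∀ t b, HasDerivAt (fun s => F (s, b)) (fderiv ℝ F (t, b) (1, 0)) t := fun t b =>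
    (hF.differentiable (by simp) _).hasFDerivAt.comp_hasDerivAt t ((hasDerivAt_id t).prodMk (hasDerivAt_const t b))
  refine ⟨_, R203.contDiff_param_integral h1, fun t b => ?_, fun b => by simpa using h2 0 b⟩
  rw [← intervalIntegral.integral_smul, intervalIntegral.integral_eq_sub_of_hasDerivAt
    (f := fun θ => F (θ * t, b)) (fun θ _ => HasDerivAt.scomp (h := fun θ => θ * t) θ (h2 (θ * t) b) (hasDerivAt_mul_const t))
    (((h1.continuous.comp (continuous_id.prodMk (continuous_const (y := (t, b))))).const_smul t).intervalIntegrable _ _)]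
  simp

variable {C : Set E} {ψ : E → ℝ}

/-- divided differences of the projection `π z = z - f z • ∇f z` (`f` from `exists_glob`):
`π (x + t e) - π x = t B (t, x, e)`, `⟪∇f x, B (t, x, e)⟫ - ⟪∇f x, B (0, x, e)⟫ = t N (t, x, e)`
(`exists_hadamard` twice); for `x ∈ C` near the link `π x = x`, `⟪ν x, Dπ(x) e⟫ = 0`. -/
theorem exists_BN (h : SMC C ψ) : ∃ (B : ℝ × E × E → E) (N : ℝ × E × E → ℝ) (ρ : ℝ),
    ContDiff ℝ ∞ B ∧ ContDiff ℝ ∞ N ∧ 0 < ρ ∧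
    ∀ x₀ ∈ C, ‖x₀‖ = 1 → ∀ (t : ℝ) (e : E), x₀ + t • e ∈ C → ‖x₀ + t • e‖ = 1 →
      t • B (t, x₀, e) = t • e ∧ ∀ x ∈ C, ‖x - x₀‖ < ρ →
        x + t • B (t, x, e) ∈ C ∧ ⟪gradient ψ x, B (t, x, e)⟫ = t * N (t, x, e) := by
  obtain ⟨f, ρ, hf, hρ, hfψ⟩ := exists_glob h
  have hg : ContDiff ℝ ∞ (gradient f) := contDiff_iff_contDiffAt.2 fun y => contDiffAt_gradient hf.contDiffAt
  have hL : ContDiff ℝ ∞ fun q : ℝ × E × E => q.2.1 + q.1 • q.2.2 := by fun_prop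
  obtain ⟨B, hB, hB1, hB0⟩ := exists_hadamard (hL.sub ((hf.comp hL).smul (hg.comp hL)))
  obtain ⟨N, hN, hN1, -⟩ := exists_hadamard ((hg.comp (contDiff_fst.comp contDiff_snd)).inner ℝ hB)
  simp only [Function.comp, zero_smul, add_zero, Pi.smul_apply'] at hB1 hB0 hN1
  refine ⟨B, N, ρ, hB, hN, hρ, fun x₀ hx₀ hx1 t e hy hy1 => ⟨?_, fun x hx hxx => ?_⟩⟩
  · rw [← hB1, (hfψ x₀ hx₀ hx1 x₀ (by simpa using hρ)).1.eq_of_nhds,
      (hfψ _ hy hy1 _ (by simpa using hρ)).1.eq_of_nhds, (mem_iff h _).1 hx₀, (mem_iff h _).1 hy]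
    simp
  obtain ⟨a1, a2⟩ := hfψ x₀ hx₀ hx1 x hxx
  obtain ⟨a3, a4⟩ := hfψ _ hy hy1 (x + t • e) (by simpa using hxx)
  have a5 : f x = 0 := by rw [a1.eq_of_nhds, (mem_iff h _).1 hx]
  have a6 : gradient f x = gradient ψ x := a1.gradient.eq_of_nhds
  refine ⟨?_, ?_⟩
  · rw [← hB1, a5, zero_smul, sub_zero, add_sub_cancel, a3.eq_of_nhds, a3.gradient.eq_of_nhds]
    exact proj_mem h a4
  · have b1 : HasDerivAt (fun s : ℝ => x + s • e) e 0 := by simpa using ((hasDerivAt_id (0 : ℝ)).smul_const e).const_add x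
    have b2 := b1.sub ((HasFDerivAt.comp_hasDerivAt_of_eq (0 : ℝ) (hf.differentiable (by simp) x).hasFDerivAt b1
      (by simp)).smul (HasFDerivAt.comp_hasDerivAt_of_eq (0 : ℝ) (hg.differentiable (by simp) x).hasFDerivAt b1 (by simp)))
    have b3 := (hB0 (x, e)).unique b2
    simp only [Function.comp, zero_smul, add_zero, a5, zero_add, ← inner_gradient_left, a6] at b3
    have b4 := hN1 t (x, e)
    rw [b3, a6, inner_sub_right, inner_smul_right, real_inner_self_eq_norm_sq, a2.norm_grad] at b4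
    simpa using b4

/-- for `x` on the link it suffices to look at points of the link -/
theorem Zf_le_normalize (h : SMC C ψ) {x y : E} (hx : x ∈ C) (hx1 : ‖x‖ = 1) (hy0 : y ≠ 0) :
    Zf ψ x y ≤ Zf ψ x (‖y‖⁻¹ • y) := by
  have hs : 0 < ‖y‖ := norm_pos_iff.2 hy0
  have hu : ‖‖y‖⁻¹ • y‖ = 1 := norm_smul_inv_norm hy0
  have e := (smul_inv_smul₀ hs.ne' y).symm
  generalize ‖y‖⁻¹ • y = u at hu e ⊢
  generalize ‖y‖ = s at hs e
  subst e
  by_cases hne : u = x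
  · simp [Zf, hne, inner_smul_right, inner_grad_self h hx]
  have h1 : s • u ≠ x := fun e => by
    have : s = 1 := by rw [← hx1, ← e, norm_smul, hu, mul_one, Real.norm_of_nonneg hs.le]
    exact hne (by rw [← e, this, one_smul])
  rw [Zf, Zf, div_le_div_iff₀ (pow_pos (norm_pos_iff.2 (sub_ne_zero.2 h1)) 2)
    (pow_pos (norm_pos_iff.2 (sub_ne_zero.2 hne)) 2), norm_sub_sq_real, norm_sub_sq_real, norm_smul, hu, hx1,
    inner_smul_right, real_inner_smul_left, abs_mul, abs_of_pos hs, Real.norm_of_nonneg hs.le]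
  nlinarith [mul_nonneg (abs_nonneg ⟪gradient ψ x, u⟫) (sq_nonneg (s - 1))]

theorem Zf_smul (h : SMC C ψ) {t : ℝ} (ht : 0 < t) (x y : E) : Zf ψ (t • x) (t • y) = Zf ψ x y := by
  rw [Zf, Zf, gradient_smul h ht, ← smul_sub, norm_smul, norm_smul, inner_smul_right, abs_mul,
    Real.norm_of_nonneg ht.le, abs_of_pos ht, mul_pow, ← mul_div_mul_left _ (‖y - x‖ ^ 2) (pow_pos ht 2).ne']
  ring

theorem link_decomp {x y : E} (hx : ‖x‖ = 1) (hy : ‖y‖ = 1) (hne : y ≠ x) :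
    ∃ (t : ℝ) (e : E), 0 < t ∧ t ≤ 2 ∧ ‖e‖ = 1 ∧ y = x + t • e := by
  have h0 := sub_ne_zero.2 hne
  refine ⟨‖y - x‖, ‖y - x‖⁻¹ • (y - x), norm_pos_iff.2 h0, by linarith [norm_sub_le y x], norm_smul_inv_norm h0, ?_⟩
  rw [smul_inv_smul₀ (norm_ne_zero_iff.2 h0), add_sub_cancel]

/-- `Zf x y = 2 |N (t, x, e)|` on the link, `N` is bounded on the compact set `[0,2] × sphere × sphere` -/
theorem exists_Zf_le (h : SMC C ψ) : ∃ K : ℝ, 0 ≤ K ∧ ∀ x ∈ C, ∀ y ∈ C, Zf ψ x y ≤ K := by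
  obtain ⟨B, N, ρ, -, hN, hρ, H⟩ := exists_BN h
  obtain ⟨K, hK⟩ := ((isCompact_Icc (a := (0 : ℝ)) (b := 2)).prod ((isCompact_sphere (0 : E) 1).prod
    (isCompact_sphere (0 : E) 1))).exists_bound_of_continuousOn hN.continuous.continuousOn
  refine ⟨2 * |K|, by positivity, fun x hx y hy => ?_⟩
  by_cases hx0 : x = 0
  · simp [Zf, hx0]
  by_cases hy0 : y = 0
  · simp [Zf, hy0]
  have hn := inv_pos.2 (norm_pos_iff.2 hx0)
  have hx' := h.smul_mem _ hn x hx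
  have hy0' := smul_ne_zero hn.ne' hy0
  have hx1 : ‖‖x‖⁻¹ • x‖ = 1 := norm_smul_inv_norm hx0
  rw [← Zf_smul h hn]
  refine (Zf_le_normalize h hx' hx1 hy0').trans ?_
  have hy' := h.smul_mem _ (inv_pos.2 (norm_pos_iff.2 hy0')) _ (h.smul_mem _ hn y hy)
  have hy1 : ‖‖‖x‖⁻¹ • y‖⁻¹ • ‖x‖⁻¹ • y‖ = 1 := norm_smul_inv_norm hy0'
  generalize ‖‖x‖⁻¹ • y‖⁻¹ • ‖x‖⁻¹ • y = w at hy' hy1
  generalize ‖x‖⁻¹ • x = z at hx' hx1
  by_cases hne : w = z
  · simp [Zf, hne]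
  obtain ⟨t, e, ht, ht2, he, rfl⟩ := link_decomp hx1 hy1 hne
  obtain ⟨a1, a2⟩ := H z hx' hx1 t e hy' hy1
  have a3 := hK (t, z, e) ⟨⟨ht.le, ht2⟩, mem_sphere_zero_iff_norm.2 hx1, mem_sphere_zero_iff_norm.2 he⟩
  rw [Zf, hx1, inner_add_right, inner_grad_self h hx', add_sub_cancel_left, norm_smul, he, ← a1, inner_smul_right,
    (a2 z hx' (by simpa using hρ)).2, zero_add, ← mul_assoc, abs_mul, abs_mul_self, Real.norm_of_nonneg ht.le,
    div_le_iff₀ (by positivity)]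
  nlinarith [mul_le_mul_of_nonneg_left (a3.trans (le_abs_self K)) (mul_self_nonneg t), Real.norm_eq_abs (N (t, z, e))]

theorem hom0_kf (h : SMC C ψ) : Hom0 (kf C ψ) := by
  intro t ht x
  unfold kf
  congr 1
  ext a
  refine ⟨fun ⟨y, hy, e⟩ => ⟨t⁻¹ • y, h.smul_mem _ (inv_pos.2 ht) y hy, ?_⟩,
    fun ⟨y, hy, e⟩ => ⟨t • y, h.smul_mem t ht y hy, by rw [Zf_smul h ht, e]⟩⟩
  rw [← Zf_smul h ht, smul_inv_smul₀ ht.ne', e]

theorem Zf_le_kf (h : SMC C ψ) {x y : E} (hx : x ∈ C) (hy : y ∈ C) : Zf ψ x y ≤ kf C ψ x := by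
  obtain ⟨K, -, hK⟩ := exists_Zf_le h
  exact le_csSup ⟨K, fun _ ⟨z, hz, e⟩ => e ▸ hK x hx z hz⟩ ⟨y, hy, rfl⟩

theorem kf_nonneg (h : SMC C ψ) {x : E} (hx : x ∈ C) : 0 ≤ kf C ψ x := by
  simpa [Zf] using Zf_le_kf h hx h.zero_mem

theorem le_kf_mul (h : SMC C ψ) {x y : E} (hx : x ∈ C) (hy : y ∈ C) :
    2 * ‖x‖ * |⟪gradient ψ x, y⟫| ≤ kf C ψ x * ‖y - x‖ ^ 2 := by
  by_cases hne : y = x
  · simp [hne, inner_grad_self h hx]
  · exact (div_le_iff₀ (pow_pos (norm_pos_iff.2 (sub_ne_zero.2 hne)) 2)).1 (Zf_le_kf h hx hy)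

theorem exists_lt_Zf (h : SMC C ψ) {x : E} (hx : x ∈ C) (hx1 : ‖x‖ = 1) {κ : ℝ} (hκ0 : 0 ≤ κ)
    (hκ : κ < kf C ψ x) : ∃ y ∈ C, ‖y‖ = 1 ∧ y ≠ x ∧ κ < Zf ψ x y := by
  obtain ⟨_, ⟨y, hy, rfl⟩, hlt⟩ := exists_lt_of_lt_csSup (⟨_, 0, h.zero_mem, rfl⟩ : (Zf ψ x '' C).Nonempty) hκ
  have hy0 : y ≠ 0 := by
    rintro rfl
    simp [Zf] at hlt
    linarith
  have h1 := hlt.trans_le (Zf_le_normalize h hx hx1 hy0)
  refine ⟨_, h.smul_mem _ (inv_pos.2 (norm_pos_iff.2 hy0)) y hy, norm_smul_inv_norm hy0, fun e => ?_, h1⟩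
  simp [e, Zf] at h1
  linarith

/-- lower bound: a point `z ∈ C` with `‖ν x - z‖ ≤ κ` has `⟪ν x, z⟫ ≥ (1-κ²)/2`, `‖z - x‖ ≤ 3` -/
theorem kf_bounds (h : SMC C ψ) (hκ : ∃ κ : ℝ, κ < 1 ∧ ∀ y : E, ‖y‖ = 1 → infDist y C ≤ κ) :
    ∃ a b : ℝ, 0 < a ∧ ∀ x ∈ C, x ≠ 0 → a ≤ kf C ψ x ∧ kf C ψ x ≤ b := by
  obtain ⟨κ, hκ, H⟩ := hκ
  obtain ⟨K, -, hK⟩ := exists_Zf_le h
  have h1 : max κ 0 < 1 := max_lt hκ one_pos
  have h2 : 0 ≤ max κ 0 := le_max_right _ _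
  refine ⟨(1 - max κ 0 ^ 2) / 9, K, by nlinarith, fun x hx hx0 =>
    ⟨?_, csSup_le ⟨_, 0, h.zero_mem, rfl⟩ fun _ ⟨z, hz, e⟩ => e ▸ hK x hx z hz⟩⟩
  have hn := inv_pos.2 (norm_pos_iff.2 hx0)
  have hx' := h.smul_mem _ hn x hx
  have hx1 : ‖‖x‖⁻¹ • x‖ = 1 := norm_smul_inv_norm hx0
  rw [← hom0_kf h _ hn]
  generalize ‖x‖⁻¹ • x = w at hx' hx1
  have hν := (eik h hx' (by rintro rfl; simp at hx1)).norm_grad
  obtain ⟨z, hz, hd⟩ := h.closed.exists_infDist_eq_dist ⟨0, h.zero_mem⟩ (gradient ψ w)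
  have h3 : ‖gradient ψ w - z‖ ≤ max κ 0 := by
    rw [← dist_eq_norm, ← hd]
    exact (H _ hν).trans (le_max_left _ _)
  have h4 := pow_le_pow_left₀ (norm_nonneg _) h3 2
  rw [norm_sub_sq_real, hν] at h4
  have h5 : ‖z - w‖ ≤ 3 := by
    linarith [norm_sub_le z w, norm_sub_norm_le z (gradient ψ w), norm_sub_rev z (gradient ψ w)]
  have h6 := le_kf_mul h hx' hz
  rw [hx1] at h6
  nlinarith [mul_le_mul_of_nonneg_left (pow_le_pow_left₀ (norm_nonneg _) h5 2) (kf_nonneg h hx'),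
    le_abs_self ⟪gradient ψ w, z⟫, sq_nonneg ‖z‖]

/-- `|x| |H v| ≤ k |v|`: `second_order` for `G y = k/2 ‖y - x‖² ± (ψ y - ⟪ν, y⟫)` (at `‖x‖ = 1`), `norm_le_of_quad` -/
theorem norm_hess_le (h : SMC C ψ) {x : E} (hx : x ∈ C) (hx0 : x ≠ 0) (v : E) :
    ‖x‖ * ‖hess ψ x v‖ ≤ kf C ψ x * ‖v‖ := by
  have hE := eik h hx hx0
  have h2 := hE.contDiffAt_two
  have h1 : ∀ s : ℝ, |s| = ‖x‖ → ∀ e, ⟪gradient ψ x, e⟫ = 0 → 0 ≤ kf C ψ x * ‖e‖ ^ 2 + s * ⟪hess ψ x e, e⟫ := by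
    intro s hs e he
    have := second_order h hx hx0 ((((Jet.norm_sub_sq (𝓝 x) x x).const_mul (kf C ψ x / 2)).add
      (((Jet.of_contDiffAt h2).sub (Jet.inner _ x (gradient ψ x))).const_mul s)).mono nhdsWithin_le_nhds |>.of_eq
      (by simp) rfl) (eventually_nhdsWithin_of_forall fun y hy => by
        have a1 := le_kf_mul h hx hy
        have a2 := le_abs_self (s * ⟪gradient ψ x, y⟫)
        rw [abs_mul, hs] at a2
        simp only [(mem_iff h _).1 hx, (mem_iff h _).1 hy, inner_grad_self h hx, sub_self, norm_zero]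
        linarith) he
    simp only [add_apply, smul_apply, sub_zero, ContinuousLinearMap.id_apply, inner_add_left, real_inner_smul_left,
      real_inner_self_eq_norm_sq] at this
    linarith
  have h3 := norm_le_of_quad (H := ‖x‖ • hess ψ x) (k := kf C ψ x)
    (fun v w => by simp only [smul_apply, real_inner_smul_left, inner_smul_right, hess_symm h2]) (fun w => ?_) v
  · rwa [smul_apply, norm_smul, norm_norm] at h3
  have hn : ⟪gradient ψ x, gradient ψ x⟫ = 1 := by rw [real_inner_self_eq_norm_sq, hE.norm_grad, one_pow]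
  have a0 : ⟪gradient ψ x, w - ⟪gradient ψ x, w⟫ • gradient ψ x⟫ = 0 := by
    rw [inner_sub_right, inner_smul_right, hn, mul_one, sub_self]
  have a1 := h1 ‖x‖ (abs_norm x) _ a0
  have a2 := h1 (-‖x‖) (by rw [abs_neg, abs_norm]) _ a0
  have a3 : ‖w - ⟪gradient ψ x, w⟫ • gradient ψ x‖ ^ 2 ≤ ‖w‖ ^ 2 := by
    rw [norm_sub_sq_real, inner_smul_right, norm_smul, hE.norm_grad, mul_one, Real.norm_eq_abs, sq_abs,
      real_inner_comm w]
    nlinarith [sq_nonneg ⟪w, gradient ψ x⟫]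
  have a4 := mul_le_mul_of_nonneg_left a3 (kf_nonneg h hx)
  rw [map_sub, map_smul, hE.hess_grad, smul_zero, sub_zero, inner_sub_right, inner_smul_right, hE.inner_hess_grad,
    mul_zero, sub_zero] at a1 a2
  rw [smul_apply, real_inner_smul_left, abs_le]
  constructor <;> linarith

/-- the sharp form: only the part of `v` tangent to the link counts -/
theorem norm_hess_sq_le (h : SMC C ψ) {x : E} (hx : x ∈ C) (hx0 : x ≠ 0) (v : E) :
    ‖x‖ ^ 4 * ‖hess ψ x v‖ ^ 2 ≤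
      kf C ψ x ^ 2 * (‖x‖ ^ 2 * ‖v‖ ^ 2 - ⟪v, x⟫ ^ 2 - ‖x‖ ^ 2 * ⟪v, gradient ψ x⟫ ^ 2) := by
  have hE := eik h hx hx0
  have hn := norm_pos_iff.2 hx0
  have h1 := pow_le_pow_left₀ (by positivity) (norm_hess_le h hx hx0
    (‖x‖ ^ 2 • v - ⟪v, x⟫ • x - (‖x‖ ^ 2 * ⟪v, gradient ψ x⟫) • gradient ψ x)) 2
  have h2 : ‖‖x‖ ^ 2 • v - ⟪v, x⟫ • x - (‖x‖ ^ 2 * ⟪v, gradient ψ x⟫) • gradient ψ x‖ ^ 2 =
      ‖x‖ ^ 2 * (‖x‖ ^ 2 * ‖v‖ ^ 2 - ⟪v, x⟫ ^ 2 - ‖x‖ ^ 2 * ⟪v, gradient ψ x⟫ ^ 2) := by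
    simp only [norm_sub_sq_real, inner_sub_left, real_inner_smul_left, inner_smul_right, norm_smul, mul_pow,
      Real.norm_eq_abs, sq_abs, hE.norm_grad, real_inner_comm (gradient ψ x) x, inner_grad_self h hx]
    ring
  simp only [map_sub, map_smul, hess_self h hx hx0, hE.hess_grad, smul_zero, sub_zero, mul_pow, h2] at h1
  rw [norm_smul, Real.norm_of_nonneg (by positivity)] at h1
  exact le_of_mul_le_mul_left (by nlinarith) (pow_pos hn 2)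

/-- contact at another point of the link, or with a principal curvature.  Recipe: maximising sequence `y_j` on the link,
subsequence with `y_j → y`, `e_j = (y_j - x)/‖y_j - x‖ → e`; if `y = x` use the jet of `ψ`:
`0 = ⟪ν, y_j - x⟫ + ⟪H (y_j - x), y_j - x⟫/2 + o(‖y_j - x‖²)`, so `|⟪H e, e⟫| = k`; equality in Cauchy-Schwarz. -/
theorem dichotomy (h : SMC C ψ) {x : E} (hx : x ∈ C) (hx1 : ‖x‖ = 1) (hk : 0 < kf C ψ x) :
    (∃ y ∈ C, ‖y‖ = 1 ∧ y ≠ x ∧ Zf ψ x y = kf C ψ x) ∨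
      ∃ (e : E) (c : ℝ), ‖e‖ = 1 ∧ hess ψ x e = c • e ∧ |c| = kf C ψ x := by
  have hx0 : x ≠ 0 := by rintro rfl; simp at hx1
  have hE := eik h hx hx0
  set k := kf C ψ x with hkd
  have hκ : Tendsto (fun j : ℕ => k * (1 - 1 / ((j : ℝ) + 1))) atTop (𝓝 k) := by
    simpa using (tendsto_one_div_add_atTop_nhds_zero_nat.const_sub 1).const_mul k
  choose y hy hy1 hne hZ using fun j : ℕ => exists_lt_Zf h hx hx1 (κ := k * (1 - 1 / ((j : ℝ) + 1)))
    (mul_nonneg hk.le (sub_nonneg.2 (div_le_one_of_le₀ (by simp) (by positivity)))) (mul_lt_of_lt_one_right hk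
      (sub_lt_self _ Nat.one_div_pos_of_nat))
  have hZ' : Tendsto (fun j => Zf ψ x (y j)) atTop (𝓝 k) :=
    tendsto_of_tendsto_of_tendsto_of_le_of_le hκ tendsto_const_nhds (fun j => (hZ j).le) fun j => Zf_le_kf h hx (hy j)
  obtain ⟨⟨z, e⟩, ⟨hz, he⟩, φ, hφ, hl⟩ := ((isCompact_sphere (0 : E) 1).prod (isCompact_sphere (0 : E) 1)).tendsto_subseq
    (x := fun j => (y j, ‖y j - x‖⁻¹ • (y j - x))) fun j => ⟨mem_sphere_zero_iff_norm.2 (hy1 j),
      mem_sphere_zero_iff_norm.2 (norm_smul_inv_norm (sub_ne_zero.2 (hne j)))⟩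
  rw [mem_sphere_zero_iff_norm] at hz he
  have l1 : Tendsto (fun j => y (φ j)) atTop (𝓝 z) := (continuous_fst.tendsto _).comp hl
  have l2 : Tendsto (fun j => ‖y (φ j) - x‖⁻¹ • (y (φ j) - x)) atTop (𝓝 e) := (continuous_snd.tendsto _).comp hl
  have l3 := hZ'.comp hφ.tendsto_atTop
  by_cases hzx : z = x
  swap
  · refine Or.inl ⟨z, h.closed.mem_of_tendsto l1 (Eventually.of_forall fun j => hy _), hz, hzx,
      tendsto_nhds_unique ?_ l3⟩
    exact ((tendsto_const_nhds.inner l1).abs.const_mul _).div ((l1.sub_const x).norm.pow 2)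
      (pow_pos (norm_pos_iff.2 (sub_ne_zero.2 hzx)) 2).ne'
  subst hzx
  have l4 := ((IsLittleO.comp_tendsto (Jet.of_contDiffAt hE.contDiffAt_two) l1).tendsto_div_nhds_zero.const_mul 2).add
    ((((hess ψ z).continuous.tendsto e).comp l2).inner (𝕜 := ℝ) l2) |>.abs
  have h1 : |⟪hess ψ z e, e⟫| = k := by
    refine tendsto_nhds_unique (by simpa only [mul_zero, zero_add] using l4) (l3.congr fun j => ?_)
    have := norm_pos_iff.2 (sub_ne_zero.2 (hne (φ j)))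
    simp only [Function.comp, Zf, hx1, (mem_iff h _).1 hx, (mem_iff h _).1 (hy _), map_smul, real_inner_smul_left,
      inner_smul_right, inner_sub_right (gradient ψ z), inner_grad_self h hx]
    rw [← abs_neg ⟪gradient ψ z, y (φ j)⟫, ← abs_of_pos (pow_pos this 2), mul_one, ← abs_two, ← abs_mul, ← abs_div,
      abs_of_pos (pow_pos this 2), abs_two]
    congr 1
    field_simp
    ring
  refine Or.inr ⟨e, _, he, ?_, h1⟩
  have h2 := norm_hess_le h hx hx0 e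
  rw [hx1, he, one_mul, mul_one, ← hkd, ← h1] at h2
  have h3 := pow_le_pow_left₀ (norm_nonneg _) h2 2
  rw [← sub_eq_zero, ← norm_le_zero_iff, ← pow_le_pow_iff_left₀ (norm_nonneg _) le_rfl two_ne_zero, norm_sub_sq_real,
    inner_smul_right, norm_smul, he, Real.norm_eq_abs]
  rw [sq_abs] at h3
  rw [mul_one, sq_abs]
  linarith

end Crest.Agent.R246.H1
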