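import Crest.Agent.R246.H1.Diag

/-!
# Row 246, block H1: the support at a two-point contact
-/

set_option autoImplicit false
set_option linter.unusedSectionVars false

open MeasureTheory Metric Filter Topology Set Module Asymptotics
open scoped RealInnerProductSpace ENNReal ContDiff Real

noncomputable section

namespace Crest.Agent.R246.H1

variable {E : Type} [NormedAddCommGroup E] [InnerProductSpace ℝ E] [FiniteDimensional ℝ E]

variable {C : Set E} {ψ : E → ℝ}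

/-- reflection in the hyperplane `w^⊥` -/
def rfl' (w : E) : E →L[ℝ] E := ContinuousLinearMap.id ℝ E - (2 : ℝ) • rk w w

theorem rfl'_apply (w v : E) : rfl' w v = v - (2 * ⟪w, v⟫) • w := by
  simp [rfl', C1.rk_apply, smul_smul]

theorem rfl'_symm (w u v : E) : ⟪rfl' w u, v⟫ = ⟪u, rfl' w v⟫ := by
  simp only [rfl'_apply, inner_sub_left, inner_sub_right, real_inner_smul_left, inner_smul_right,
    real_inner_comm w u]
  ring

theorem rfl'_rfl' {w : E} (hw : ‖w‖ = 1) (v : E) : rfl' w (rfl' w v) = v := by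
  simp only [rfl'_apply, inner_sub_right, inner_smul_right, real_inner_self_eq_norm_sq, hw]
  module

theorem norm_rfl' {w : E} (hw : ‖w‖ = 1) (v : E) : ‖rfl' w v‖ = ‖v‖ := by
  rw [← sq_eq_sq₀ (norm_nonneg _) (norm_nonneg _), ← real_inner_self_eq_norm_sq, rfl'_symm, rfl'_rfl' hw,
    real_inner_self_eq_norm_sq]

theorem trc_rfl' {w : E} (hw : ‖w‖ = 1) (A : E →L[ℝ] E) : trc (rfl' w ∘L A ∘L rfl' w) = trc A := by
  show LinearMap.trace ℝ E ((rfl' w : E →ₗ[ℝ] E) ∘ₗ ((A : E →ₗ[ℝ] E) ∘ₗ (rfl' w : E →ₗ[ℝ] E))) =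
    LinearMap.trace ℝ E (A : E →ₗ[ℝ] E)
  rw [LinearMap.trace_comp_comm', LinearMap.comp_assoc]
  congr 1
  ext v
  simp [rfl'_rfl' hw]

theorem jet_log_one_add {l : Filter E} {x : E} (hl : l ≤ 𝓝 x) {χ a : E → ℝ} {Q : E →L[ℝ] E} {ν : E} {a₀ : ℝ}
    (h : Jet l x χ 0 Q) (h0 : χ x = 0) (hQ : trT ν Q = 0) (ha : Tendsto a l (𝓝 a₀)) :
    (∃ p' Q', Jet l x (fun z => Real.log (1 + χ z * a z)) p' Q' ∧ trT ν Q' = 0) ∧ ∀ᶠ z in l, 0 < 1 + χ z * a z := by
  have J := (Jet.const l x 1).add (h.mul_tendsto h0 ha)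
  refine ⟨⟨_, _, J.log hl (by simp [h0]), ?_⟩, (J.tendsto hl).eventually (lt_mem_nhds (by simp [h0]))⟩
  simp [trT_sub, trT_smul, trT_rk, hQ]

theorem sup_off (h : SMC C ψ) {d : ℕ} (hd : finrank ℝ E = d + 1) {x y : E} (hx : x ∈ C) (hx1 : ‖x‖ = 1)
    (hk : 0 < kf C ψ x) (hy : y ∈ C) (hy1 : ‖y‖ = 1) (hne : y ≠ x) (hZ : Zf ψ x y = kf C ψ x) :
    Sup C (gradient ψ x) (fun z => Real.log (kf C ψ z)) x ((d : ℝ) - 1 - A2 ψ x) := by
  have hx0 : x ≠ 0 := by rintro rfl; simp at hx1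
  have hy0 : y ≠ 0 := by rintro rfl; simp at hy1
  have hE := eik h hx hx0
  have hE' := eik h hy hy0
  have h2 := hE.contDiffAt_two
  have hν := hE.norm_grad
  have hνx := inner_grad_self h hx
  set k := kf C ψ x with hkd
  set ν := gradient ψ x with hνd
  set b := ⟪ν, y⟫ with hb
  set ℓ := ‖y - x‖ with hℓ
  have hℓ0 : 0 < ℓ := norm_pos_iff.2 (sub_ne_zero.2 hne)
  have hkb : k * ℓ ^ 2 = 2 * |b| := by
    rw [← hZ, Zf, hx1, mul_one, div_mul_cancel₀ _ (by positivity)]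
  have hb0 : b ≠ 0 := abs_pos.1 (by have : 0 < k * ℓ ^ 2 := by positivity
                                    linarith)
  obtain ⟨w, hwd⟩ : ∃ w, w = ℓ⁻¹ • (x - y) := ⟨_, rfl⟩
  have hw : ‖w‖ = 1 := by
    rw [hwd, norm_smul, norm_sub_rev, norm_inv, Real.norm_of_nonneg hℓ0.le, inv_mul_cancel₀ hℓ0.ne']
  have hξ0 : ⟪w, x⟫ = ℓ / 2 := by
    have : ℓ ^ 2 = 2 - 2 * ⟪y, x⟫ := by rw [hℓ, norm_sub_sq_real, hx1, hy1]; ring
    rw [hwd, real_inner_smul_left, inner_sub_left, real_inner_self_eq_norm_sq, hx1]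
    field_simp
    linarith
  have hβ0 : ⟪w, ν⟫ = -b / ℓ := by
    rw [hwd, real_inner_smul_left, inner_sub_left, real_inner_comm ν, real_inner_comm ν, hνx, ← hb]
    ring
  have hRx : rfl' w x = y := by
    rw [rfl'_apply, hξ0, hwd, smul_smul, mul_div_cancel₀ _ two_ne_zero, mul_inv_cancel₀ hℓ0.ne', one_smul,
      sub_sub_cancel]
  -- tangency
  obtain ⟨ε, hε⟩ : ∃ ε : ℝ, rfl' w ν = ε • gradient ψ y := by
    have hG : HasGradientAt (fun z => |b| * k * ‖z - x‖ ^ 2 - 2 * b * ⟪ν, z⟫) ((-2 * b) • rfl' w ν) y := by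
      rw [hasGradientAt_iff_hasFDerivAt]
      refine (((((hasFDerivAt_id y).sub_const x).norm_sq).const_mul (|b| * k)).sub
        ((innerSL ℝ ν).hasFDerivAt.const_mul (2 * b))).congr_fderiv (ContinuousLinearMap.ext fun v => ?_)
      have e1 : |b| * k = 2 * b ^ 2 / ℓ ^ 2 := by
        rw [eq_div_iff (by positivity), mul_assoc, hkb, ← sq_abs]; ring
      simp only [sub_apply, smul_apply, ContinuousLinearMap.comp_apply, innerSL_apply_apply, id,
        ContinuousLinearMap.id_apply, smul_eq_mul, InnerProductSpace.toDual_apply_apply, rfl'_apply, hβ0,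
        real_inner_smul_left, inner_sub_left, nsmul_eq_mul, e1]
      rw [hwd, real_inner_smul_left, inner_sub_left]
      push_cast
      field_simp
      ring
    have := first_order h hy hy0 hG (eventually_nhdsWithin_of_forall fun z hz => by
      have a1 := le_kf_mul h hx hz
      rw [hx1, mul_one, ← hνd, ← hkd] at a1
      have a2 : b * ⟪ν, z⟫ ≤ |b| * |⟪ν, z⟫| := by rw [← abs_mul]; exact le_abs_self _
      have a3 := mul_le_mul_of_nonneg_left a1 (abs_nonneg b)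
      have a4 : |b| * k * ℓ ^ 2 = 2 * b * b := by rw [mul_assoc, hkb, mul_left_comm, abs_mul_abs_self]; ring
      simp only [← hb, ← hℓ]
      nlinarith)
    refine ⟨(-2 * b)⁻¹ * ⟪gradient ψ y, (-2 * b) • rfl' w ν⟫, ?_⟩
    rw [mul_smul, ← this, inv_smul_smul₀ (by simpa using hb0)]
  have hε2 : ε * ε = 1 := by
    have := congrArg norm hε
    rw [norm_rfl' hw, hν, norm_smul, hE'.norm_grad, mul_one, Real.norm_eq_abs] at this
    rw [← abs_mul_abs_self, ← this, mul_one]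
  have hε' : rfl' w (gradient ψ y) = ε • ν := by
    rw [← rfl'_rfl' hw ν, hε, map_smul, smul_smul, hε2, one_smul]
  -- the quadratic defect
  have Jχ : Jet (𝓝 x) x (fun z => ψ (rfl' w z) - ε * ψ z) 0
      (rfl' w ∘L hess ψ y ∘L rfl' w - ε • hess ψ x) :=
    ((Jet.comp_symm (rfl'_symm w) (norm_rfl' hw) (by rw [hRx]; exact Jet.of_contDiffAt hE'.contDiffAt_two)).sub
      ((Jet.of_contDiffAt h2).const_mul ε)).of_eq (by rw [hε', sub_self]) rfl
  have hχ0 : ψ (rfl' w x) - ε * ψ x = 0 := by rw [hRx, (mem_iff h y).1 hy, (mem_iff h x).1 hx]; simp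
  have hQ : trT ν (rfl' w ∘L hess ψ y ∘L rfl' w - ε • hess ψ x) = 0 := by
    have a1 : trc (hess ψ y) = 0 := h.minimal y hy hy0
    have a2 : trc (hess ψ x) = 0 := h.minimal x hx hx0
    rw [trT_sub, trT_smul, trT, trT, trc_rfl' hw, a1, a2, ContinuousLinearMap.comp_apply,
      ContinuousLinearMap.comp_apply, hε, map_smul, hE'.hess_grad, hνd, hE.hess_grad]
    simp
  have hR : Tendsto (rfl' w) (𝓝 x) (𝓝 y) := hRx ▸ (rfl' w).continuous.tendsto x
  have c1 : Tendsto (gradient ψ) (𝓝 x) (𝓝 ν) := (contDiffAt_gradient hE.contDiffAt).continuousAt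
  have c2 : Tendsto (fun z => gradient ψ (rfl' w z)) (𝓝 x) (𝓝 (gradient ψ y)) :=
    (contDiffAt_gradient hE'.contDiffAt).continuousAt.tendsto.comp hR
  have cξ : Tendsto (fun z => ⟪w, z⟫) (𝓝 x) (𝓝 ⟪w, x⟫) := tendsto_const_nhds.inner tendsto_id
  have cβ : Tendsto (fun z => ⟪w, gradient ψ z⟫) (𝓝 x) (𝓝 ⟪w, ν⟫) := tendsto_const_nhds.inner c1
  have hξ1 : ⟪w, x⟫ ≠ 0 := by rw [hξ0]; positivity
  have hβ1 : ⟪w, ν⟫ ≠ 0 := by rw [hβ0]; exact div_ne_zero (neg_ne_zero.2 hb0) hℓ0.ne'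
  obtain ⟨⟨pn, Qn, Jn, tn⟩, en⟩ := jet_log_one_add le_rfl Jχ hχ0 hQ
    (a := fun z => ⟪gradient ψ z, gradient ψ (rfl' w z)⟫ / (2 * ⟪w, z⟫ * ⟪w, gradient ψ z⟫))
    ((c1.inner c2).div ((cξ.const_mul 2).mul cβ) (mul_ne_zero (mul_ne_zero two_ne_zero hξ1) hβ1))
  obtain ⟨⟨pD, QD, JD, tD⟩, eD⟩ := jet_log_one_add le_rfl Jχ hχ0 hQ
    (a := fun z => (4 * ⟪w, z⟫ * ⟪w, gradient ψ (rfl' w z)⟫ + (ψ (rfl' w z) - ε * ψ z)) / (4 * ⟪w, z⟫ ^ 2))
    ((((cξ.const_mul 4).mul (tendsto_const_nhds.inner c2)).add (Jχ.tendsto le_rfl)).div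
      ((cξ.pow 2).const_mul 4) (mul_ne_zero four_ne_zero (pow_ne_zero 2 hξ1)))
  obtain ⟨p₁, Q₁, J₁, t₁⟩ := trT_log_norm_sq hd hx1 hν hνx
  have hβs : ContDiffAt ℝ 2 (fun z => ⟪w, gradient ψ z⟫) x :=
    contDiffAt_const.inner ℝ ((contDiffAt_gradient hE.contDiffAt).of_le two_le_infty)
  have Jβ := (Jet.of_contDiffAt hβs).log le_rfl hβ1
  have Jξ := (Jet.inner (𝓝 x) x w).log le_rfl hξ1
  have hβk : ⟪w, ν⟫ ^ 2 = k ^ 2 * ⟪w, x⟫ ^ 2 := by
    have : b ^ 2 = (k * ℓ ^ 2 / 2) ^ 2 := by rw [hkb, ← sq_abs]; ring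
    rw [hβ0, hξ0, div_pow, neg_sq, this]
    field_simp
  refine ⟨_, _, _, (((((J₁.const_mul (1 / 2)).add Jβ).sub Jξ).add Jn).sub JD).mono nhdsWithin_le_nhds,
    ?_, ?_, ?_⟩
  · have a1 := congrArg Real.log hβk
    rw [Real.log_mul (by positivity) (by positivity), Real.log_pow, Real.log_pow, Real.log_pow] at a1
    simp only [hχ0, hx1, one_pow, Real.log_one, zero_mul, add_zero, ← hνd, ← hkd]
    push_cast at a1
    linarith
  · filter_upwards [self_mem_nhdsWithin, nhdsWithin_le_nhds en, nhdsWithin_le_nhds eD,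
      nhdsWithin_le_nhds (isOpen_ne.mem_nhds hx0), nhdsWithin_le_nhds (cξ.eventually_ne hξ1),
      nhdsWithin_le_nhds (cβ.eventually_ne hβ1), nhdsWithin_le_nhds (hR.eventually hE'.eventually)]
      with z hz a1 a2 hz0 a3 a4 a5
    have a6 := le_kf_mul h hz (proj_mem h a5)
    simp only [(mem_iff h z).1 hz, mul_zero, sub_zero] at a1 a2 ⊢
    set χ := ψ (rfl' w z)
    set ν' := gradient ψ (rfl' w z)
    set ξ := ⟪w, z⟫ with hξ
    set β := ⟪w, gradient ψ z⟫ with hβ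
    set n := 1 + χ * (⟪gradient ψ z, ν'⟫ / (2 * ξ * β)) with hn
    set D := 1 + χ * ((4 * ξ * ⟪w, ν'⟫ + χ) / (4 * ξ ^ 2)) with hD
    have a7 : ⟪gradient ψ z, rfl' w z - χ • ν'⟫ = -(2 * ξ * β * n) := by
      rw [rfl'_apply, inner_sub_right, inner_sub_right, inner_grad_self h hz, inner_smul_right, inner_smul_right,
        real_inner_comm w, ← hβ, ← hξ, hn]
      field_simp
      ring
    have a8 : ‖rfl' w z - χ • ν' - z‖ ^ 2 = 4 * ξ ^ 2 * D := by
      have : rfl' w z - χ • ν' - z = -((2 * ξ) • w + χ • ν') := by rw [rfl'_apply, ← hξ]; abel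
      rw [this, norm_neg, norm_add_sq_real, norm_smul, norm_smul, hw, a5.norm_grad, real_inner_smul_left,
        inner_smul_right, hD, mul_one, mul_one, Real.norm_eq_abs, Real.norm_eq_abs, sq_abs, sq_abs]
      field_simp
      ring
    rw [a7, a8, abs_neg, abs_mul, abs_mul, abs_mul, abs_two, abs_of_pos a1, ← sq_abs ξ] at a6
    have hn0 : 0 < ‖z‖ := norm_pos_iff.2 hz0
    have b1 : 0 < |ξ| := abs_pos.2 a3
    have b2 : 0 < |β| := abs_pos.2 a4
    have a9 : ‖z‖ * |β| * n ≤ kf C ψ z * |ξ| * D :=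
      le_of_mul_le_mul_left (by linarith) (show 0 < 4 * |ξ| by positivity)
    have b3 : 0 < ‖z‖ * |β| * n := by positivity
    have b4 : kf C ψ z ≠ 0 := fun h0 => by
      rw [h0, zero_mul, zero_mul] at a9
      exact absurd b3 (not_lt.2 a9)
    have b5 := Real.log_le_log b3 a9
    rw [Real.log_mul (by positivity) a1.ne', Real.log_mul hn0.ne' b2.ne', Real.log_mul (mul_ne_zero b4 b1.ne') a2.ne',
      Real.log_mul b4 b1.ne', Real.log_abs, Real.log_abs] at b5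
    rw [Real.log_pow]
    push_cast
    linarith
  · have s1 := trT_hess_beta h hx hx0 w
    have s2 := norm_hess_sq_le h hx hx0 w
    have s3 : ⟪ν, hess ψ x w⟫ = 0 := by rw [real_inner_comm]; exact hE.inner_hess_grad w
    rw [← hνd] at s1
    rw [← hνd, ← hkd, hx1, hw] at s2
    simp only [trT_sub, trT_add, trT_smul, trT_rk, trT_zero, t₁, tn, tD, s1, s3, ← hνd, hw, hx1, A2,
      (hasGradientAt_inner_gradient h2 w).gradient, real_inner_comm w ν]
    have s4 : (⟪w, ν⟫ ^ 2)⁻¹ * ‖hess ψ x w‖ ^ 2 ≤ (⟪w, x⟫ ^ 2)⁻¹ * (1 - ⟪w, ν⟫ ^ 2) - 1 := by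
      rw [inv_mul_le_iff₀ (by positivity)]
      refine le_trans (by linarith) (s2.trans (le_of_eq ?_))
      rw [hβk]
      field_simp
      ring
    have s5 : ⟪w, ν⟫⁻¹ * (-trc (hess ψ x ∘L hess ψ x) * ⟪w, ν⟫) = -trc (hess ψ x ∘L hess ψ x) := by
      field_simp
    rw [s5]
    norm_num
    linarith

end Crest.Agent.R246.H1
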