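import Crest.Agent.R246.H1.Semi
import Crest.Agent.R246.H1.Off
import Crest.Agent.R246.H1.Diag
import Crest.Agent.R246.H1.Int

/-! Row 246, block H1: final statements (see `R246/Blueprint.lean`). -/

set_option autoImplicit false

open MeasureTheory Metric Filter Topology Set Module
open scoped RealInnerProductSpace

namespace Crest.Agent.R246

theorem stT2 (hG : Geo) : All fun E => StT2 E := by
  intro E _ _ _ _ _ d hd hd2 C ψ h hnf
  obtain ⟨h1, -, h2, -, h3, h4⟩ := hG.smc E d hd hd2 C ψ h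
  have hc : H1.Ctx d C ψ := ⟨h, by omega, h1, h2, h3, h4⟩
  obtain ⟨a, b, ha, hab⟩ := H1.kf_bounds h (hG.rad E d hd hd2 C ψ h hnf).2
  have hs := H1.semi_log_kf h ha fun x hx hx0 => (hab x hx hx0).1
  have h0 : Hom0 fun x => Real.log (H1.kf C ψ x) := fun t ht y => by
    simp only [H1.hom0_kf h t ht y]
  obtain ⟨hi, hle⟩ := hc.integrate (f := fun y => (d : ℝ) - 1 - A2 ψ y) (hs.continuousOn h.toCCone h0)
    (M := |Real.log a| + |Real.log b|) (fun y hy hy0 => by
      have h5 := Real.log_le_log ha (hab y hy hy0).1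
      have h6 := Real.log_le_log (ha.trans_le (hab y hy hy0).1) (hab y hy hy0).2
      rw [abs_le]
      constructor <;> linarith [le_abs_self (Real.log b), neg_abs_le (Real.log a), abs_nonneg (Real.log a),
        abs_nonneg (Real.log b)]) h0 hs (fun t ht y => by simp only [H1.hom0_A2 h t ht y])
    (continuousOn_const.sub (H1.continuousOn_A2 h)) (fun x hx hx1 => by
      have hx0 : x ≠ 0 := by rintro rfl; simp at hx1
      have hk := ha.trans_le (hab x hx hx0).1
      rcases H1.dichotomy h hx hx1 hk with ⟨y, hy, hy1, hne, hZ⟩ | ⟨e, c, he, hc, hck⟩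
      · exact H1.sup_off h hd hx hx1 hk hy hy1 hne hZ
      · exact H1.sup_diag h hd hx hx1 hk he hc hck)
  have hi1 := (hc.integ 0 one_pos).const_mul ((d : ℝ) - 1)
  have e : ∀ y, gk d 0 1 y * A2 ψ y = ((d : ℝ) - 1) * gk d 0 1 y - gk d 0 1 y * ((d : ℝ) - 1 - A2 ψ y) :=
    fun y => by ring
  simp only [e]
  rw [integral_sub hi1 hi, integral_const_mul]
  unfold Th th
  linarith

/-- in dimension three the Hessian of `ψ` vanishes on the cone -/
theorem H1.A2_eq_zero {E : Type} [NormedAddCommGroup E] [InnerProductSpace ℝ E] [FiniteDimensional ℝ E]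
    (hd : finrank ℝ E = 3) {C : Set E} {ψ : E → ℝ} (h : SMC C ψ) {x : E} (hx : x ∈ C) (hx0 : x ≠ 0) :
    A2 ψ x = 0 := by
  have hE := H1.eik h hx hx0
  have hn : 0 < ‖x‖ := norm_pos_iff.2 hx0
  have hνx := H1.inner_grad_self h hx
  have ho : Orthonormal ℝ (({0, 1} : Set (Fin 3)).domRestrict ![‖x‖⁻¹ • x, gradient ψ x, 0]) := by
    refine ⟨fun ⟨i, hi⟩ => ?_, fun ⟨i, hi⟩ ⟨j, hj⟩ hij => ?_⟩
    · rcases hi with rfl | rfl
      · exact norm_smul_inv_norm hx0
      · exact hE.norm_grad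
    · rcases hi with rfl | rfl <;> rcases hj with rfl | rfl
      · exact absurd rfl hij
      · show ⟪‖x‖⁻¹ • x, gradient ψ x⟫ = 0
        rw [real_inner_smul_left, real_inner_comm, hνx, mul_zero]
      · show ⟪gradient ψ x, ‖x‖⁻¹ • x⟫ = 0
        rw [inner_smul_right, hνx, mul_zero]
      · exact absurd rfl hij
  obtain ⟨b, hb⟩ := ho.exists_orthonormalBasis_extension_of_card_eq (by simpa using hd)
  have h0 : hess ψ x (b 0) = 0 := by
    rw [hb 0 (by simp)]
    show hess ψ x (‖x‖⁻¹ • x) = 0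
    rw [map_smul, H1.hess_self h hx hx0, smul_zero]
  have h1 : hess ψ x (b 1) = 0 := by
    rw [hb 1 (by simp)]
    exact hE.hess_grad
  have h2 : ⟪b 2, hess ψ x (b 2)⟫ = 0 := by
    have := h.minimal x hx hx0
    rw [lap, trc, LinearMap.trace_eq_sum_inner _ b, Fin.sum_univ_three] at this
    simpa [h0, h1] using this
  have h3 : hess ψ x (b 2) = 0 := by
    rw [← b.sum_repr' (hess ψ x (b 2)), Fin.sum_univ_three, h2, ← H1.hess_symm hE.contDiffAt_two,
      ← H1.hess_symm hE.contDiffAt_two, h0, h1]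
    simp
  rw [A2, trc, LinearMap.trace_eq_sum_inner _ b, Fin.sum_univ_three]
  simp [h0, h1, h3]

theorem stSY2 (hG : Geo) : All fun E => StSY2 E := by
  intro E _ _ _ _ _ hd C ψ h hnf
  exfalso
  obtain ⟨h1, -, h2, -, h3, h4⟩ := hG.smc E 2 hd le_rfl C ψ h
  have hc : H1.Ctx 2 C ψ := ⟨h, by omega, h1, h2, h3, h4⟩
  have h5 := stT2 hG E 2 hd le_rfl C ψ h hnf
  rw [integral_congr_ae (g := fun _ => 0) (hc.ae_mem.mono fun y hy => by
    simp only [H1.A2_eq_zero hd h hy.1 hy.2, mul_zero]), integral_zero] at h5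
  have : Nontrivial E := Module.nontrivial_of_finrank_pos (R := ℝ) (by omega)
  obtain ⟨e, he⟩ := exists_norm_eq E zero_le_one
  obtain ⟨y, hy, hey⟩ := (hG.rad E 2 hd le_rfl C ψ h hnf).1 e he
  have h6 := le_of_tendsto (h4 y hy (by rintro rfl; simp at hey))
    (eventually_mem_nhdsWithin.mono fun r hr => hc.upper y hr)
  norm_num at h5
  linarith

end Crest.Agent.R246
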