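import Crest.Agent.R246.H1.Kf
import Crest.Agent.R246.C1.Main

/-!
# Row 246, block H1: Gaussian moments on the cone; the nonlocal Laplacian
-/

set_option autoImplicit false
set_option linter.unusedSectionVars false

open MeasureTheory Metric Filter Topology Set Module Asymptotics
open scoped RealInnerProductSpace ENNReal ContDiff Real

noncomputable section

namespace Crest.Agent.R246.H1

variable {E : Type} [NormedAddCommGroup E] [InnerProductSpace ℝ E] [FiniteDimensional ℝ E]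
  [MeasurableSpace E] [BorelSpace E]

/-- what is used of `StSMC` -/
structure Ctx (d : ℕ) (C : Set E) (ψ : E → ℝ) : Prop where
  smc : SMC C ψ
  dpos : 1 ≤ d
  sv : SV d (vC d C ψ) (Th d C)
  fst : (vC d C ψ).fst = ar d C
  scal : ∀ t : ℝ, 0 < t → ∀ S : Set E, ar d C ((fun y => t • y) '' S) = ENNReal.ofReal (t ^ d) * ar d C S
  one : ∀ p ∈ C, p ≠ 0 → Tendsto (th d (ar d C) p) (𝓝[>] 0) (𝓝 1)

theorem measurable_gradient (ψ : E → ℝ) : Measurable (gradient ψ) := by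
  exact (InnerProductSpace.toDual ℝ E).symm.continuous.measurable.comp (measurable_fderiv ℝ ψ)

theorem gk_pow (d j : ℕ) : ∃ K : ℝ, 0 ≤ K ∧ ∀ (q : E) (ρ : ℝ) (y : E), 0 < ρ →
    gk d q ρ y * ‖y - q‖ ^ j ≤ K * ρ ^ j * gk d q (2 * ρ) y := by
  refine ⟨2 ^ d * j.factorial * Real.exp 1, by positivity, fun q ρ y hρ => ?_⟩
  have hpi : 0 < √(2 * π) := Real.sqrt_pos.2 (by have := Real.pi_pos; positivity)
  obtain ⟨s, hs0, hs⟩ : ∃ s, 0 ≤ s ∧ ‖y - q‖ = s * ρ := ⟨‖y - q‖ / ρ, by positivity, by field_simp⟩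
  have h1 := Real.pow_div_factorial_le_exp s hs0 j
  rw [div_le_iff₀ (by positivity)] at h1
  have h2 : Real.exp (-(s * ρ) ^ 2 / (2 * ρ ^ 2)) * Real.exp s ≤
      Real.exp 1 * Real.exp (-(s * ρ) ^ 2 / (2 * (2 * ρ) ^ 2)) := by
    rw [← Real.exp_add, ← Real.exp_add, Real.exp_le_exp, show -(s * ρ) ^ 2 / (2 * ρ ^ 2) = -s ^ 2 / 2 by field_simp,
      show -(s * ρ) ^ 2 / (2 * (2 * ρ) ^ 2) = -s ^ 2 / 8 by field_simp; ring]
    nlinarith [sq_nonneg (s - 2)]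
  rw [gk, gk, hs, show (√(2 * π) * ρ)⁻¹ = 2 * (√(2 * π) * (2 * ρ))⁻¹ by field_simp, mul_pow 2, mul_pow s ρ j]
  calc _ = 2 ^ d * (√(2 * π) * (2 * ρ))⁻¹ ^ d * ρ ^ j * (Real.exp (-(s * ρ) ^ 2 / (2 * ρ ^ 2)) * s ^ j) := by ring
    _ ≤ 2 ^ d * (√(2 * π) * (2 * ρ))⁻¹ ^ d * ρ ^ j * (Real.exp (-(s * ρ) ^ 2 / (2 * ρ ^ 2)) * Real.exp s *
        j.factorial) := by rw [mul_assoc (Real.exp _)]; gcongr
    _ ≤ 2 ^ d * (√(2 * π) * (2 * ρ))⁻¹ ^ d * ρ ^ j * (Real.exp 1 * Real.exp (-(s * ρ) ^ 2 / (2 * (2 * ρ) ^ 2)) *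
        j.factorial) := by gcongr
    _ = _ := by ring

namespace Ctx
variable {d : ℕ} {C : Set E} {ψ : E → ℝ}

theorem integ (h : Ctx d C ψ) (p : E) {r : ℝ} (hr : 0 < r) : Integrable (gk d p r) (ar d C) :=
  h.fst ▸ h.sv.integ p r hr

theorem upper (h : Ctx d C ψ) (p : E) {r : ℝ} (hr : 0 < r) : th d (ar d C) p r ≤ Th d C :=
  h.fst ▸ h.sv.upper p r hr

theorem sigmaFinite (h : Ctx d C ψ) : SigmaFinite (ar d C) := by
  have := C1.finiteOnCompacts_of_gk one_pos (h.integ 0 one_pos)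
  infer_instance

theorem zero (h : Ctx d C ψ) : ar d C {0} = 0 := by
  have := C1.finiteOnCompacts_of_gk one_pos (h.integ 0 one_pos)
  have h1 := h.scal 2 two_pos {0}
  rw [image_singleton, smul_zero] at h1
  by_contra h0
  have := ENNReal.mul_lt_mul_left h0 (isCompact_singleton.measure_lt_top (μ := ar d C)).ne
    (ENNReal.one_lt_ofReal.2 (one_lt_pow₀ one_lt_two (Nat.one_le_iff_ne_zero.1 h.dpos)))
  rw [← h1, one_mul] at this
  exact this.false

theorem ae_mem (h : Ctx d C ψ) : ∀ᵐ y ∂ar d C, y ∈ C ∧ y ≠ 0 := by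
  exact (ae_restrict_mem h.smc.closed.measurableSet).and (measure_eq_zero_iff_ae_notMem.1 h.zero)

theorem moment_le (h : Ctx d C ψ) (j : ℕ) : ∃ K : ℝ, 0 ≤ K ∧ ∀ (q : E) (r : ℝ), 0 < r →
    Integrable (fun y => gk d q r y * ‖y - q‖ ^ j) (ar d C) ∧
      ∫ y, gk d q r y * ‖y - q‖ ^ j ∂ar d C ≤ K * r ^ j := by
  obtain ⟨K, hK0, hK⟩ := gk_pow (E := E) d j
  refine ⟨K * |Th d C|, by positivity, fun q r hr => ?_⟩
  have h1 := (h.integ q (r := 2 * r) (by positivity)).const_mul (K * r ^ j)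
  have h2 : Integrable (fun y => gk d q r y * ‖y - q‖ ^ j) (ar d C) :=
    h1.mono' ((C1.continuous_gk d q r).mul (by fun_prop)).aestronglyMeasurable (Eventually.of_forall fun y => by
      rw [Real.norm_of_nonneg (mul_nonneg (C1.gk_pos d q hr y).le (by positivity))]
      exact hK q r y hr)
  refine ⟨h2, (integral_mono h2 h1 fun y => hK q r y hr).trans ?_⟩
  rw [integral_const_mul, mul_right_comm]
  exact mul_le_mul_of_nonneg_right (mul_le_mul_of_nonneg_left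
    ((h.upper q (by positivity)).trans (le_abs_self _)) hK0) (by positivity)

theorem integrable_of_le (h : Ctx d C ψ) (x : E) {r : ℝ} (hr : 0 < r) {f : E → ℝ} (hf : Measurable f) {a b : ℝ}
    (hab : ∀ y ∈ C, y ≠ 0 → |f y| ≤ a + b * ‖y - x‖ ^ 2) : Integrable (fun y => gk d x r y * f y) (ar d C) := by
  obtain ⟨K, -, hK⟩ := h.moment_le 2
  refine (((h.integ x hr).mul_const a).add ((hK x r hr).1.const_mul b)).mono'
    ((C1.continuous_gk d x r).measurable.mul hf).aestronglyMeasurable (h.ae_mem.mono fun y hy => ?_)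
  rw [norm_mul, Real.norm_of_nonneg (C1.gk_pos d x hr y).le, Pi.add_apply, mul_left_comm, ← mul_add]
  exact mul_le_mul_of_nonneg_left (hab y hy.1 hy.2) (C1.gk_pos d x hr y).le

theorem integrable_trT (h : Ctx d C ψ) (Q : E →L[ℝ] E) :
    (Measurable fun y => trT (gradient ψ y) Q / 2) ∧
      ∀ y ∈ C, y ≠ 0 → |trT (gradient ψ y) Q / 2| ≤ |trc Q| + ‖Q‖ := by
  have hm := measurable_gradient ψ
  refine ⟨(measurable_const.sub (hm.inner (Q.continuous.measurable.comp hm))).div_const 2, fun y hy hy0 => ?_⟩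
  have a1 := abs_real_inner_le_norm (gradient ψ y) (Q (gradient ψ y))
  have a2 := Q.le_opNorm (gradient ψ y)
  rw [(eik h.smc hy hy0).norm_grad] at a1 a2
  rw [trT, abs_div, abs_two]
  linarith [abs_sub (trc Q) ⟪gradient ψ y, Q (gradient ψ y)⟫, abs_nonneg (trc Q), norm_nonneg Q]

theorem abs_quad_le {ν : E} (hν : ‖ν‖ = 1) (p v : E) (Q : E →L[ℝ] E) :
    |⟪p, v⟫ + ⟪Q v, v⟫ / 2 - ⟪ν, v⟫ * ⟪ν, p + (2 : ℝ)⁻¹ • Q v⟫| ≤ 2 * ‖p‖ * ‖v‖ + ‖Q‖ * ‖v‖ ^ 2 := by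
  have a0 : ‖p + (2 : ℝ)⁻¹ • Q v‖ ≤ ‖p‖ + ‖Q‖ * ‖v‖ / 2 := (norm_add_le _ _).trans (by
    rw [norm_smul, norm_inv, Real.norm_two]
    linarith [Q.le_opNorm v])
  have a1 := abs_real_inner_le_norm (p + (2 : ℝ)⁻¹ • Q v) v
  have a2 := abs_real_inner_le_norm ν v
  have a3 := abs_real_inner_le_norm ν (p + (2 : ℝ)⁻¹ • Q v)
  rw [hν, one_mul] at a2 a3
  have a4 := mul_le_mul a2 a3 (abs_nonneg _) (norm_nonneg _)
  rw [inner_add_left, real_inner_smul_left, inv_mul_eq_div] at a1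
  refine (abs_sub _ _).trans ?_
  rw [abs_mul]
  nlinarith [mul_le_mul_of_nonneg_right a0 (norm_nonneg v)]

/-- stationarity for `X y = gk d x r y • (p + ½ Q (y - x))` -/
theorem moment (h : Ctx d C ψ) (x : E) {r : ℝ} (hr : 0 < r) (p : E) (Q : E →L[ℝ] E) :
    Integrable (fun y => gk d x r y * (⟪p, y - x⟫ + ⟪Q (y - x), y - x⟫ / 2 -
      ⟪gradient ψ y, y - x⟫ * ⟪gradient ψ y, p + (2 : ℝ)⁻¹ • Q (y - x)⟫)) (ar d C) ∧
    ∫ y, gk d x r y * (⟪p, y - x⟫ + ⟪Q (y - x), y - x⟫ / 2 -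
      ⟪gradient ψ y, y - x⟫ * ⟪gradient ψ y, p + (2 : ℝ)⁻¹ • Q (y - x)⟫) ∂ar d C =
      r ^ 2 * ∫ y, gk d x r y * (trT (gradient ψ y) Q / 2) ∂ar d C := by
  have hm := measurable_gradient ψ
  have h1 := h.integrable_of_le x hr (f := fun y => ⟪p, y - x⟫ + ⟪Q (y - x), y - x⟫ / 2 -
      ⟪gradient ψ y, y - x⟫ * ⟪gradient ψ y, p + (2 : ℝ)⁻¹ • Q (y - x)⟫) (a := ‖p‖) (b := ‖p‖ + ‖Q‖)
    ((Continuous.measurable (by fun_prop)).sub ((hm.inner (Continuous.measurable (by fun_prop))).mul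
      (hm.inner (Continuous.measurable (by fun_prop)))))
    fun y hy hy0 => (abs_quad_le (eik h.smc hy hy0).norm_grad _ _ _).trans (by
      nlinarith [mul_nonneg (norm_nonneg p) (sq_nonneg (‖y - x‖ - 1))])
  have h2 := h.integrable_of_le x hr (h.integrable_trT Q).1 (b := 0) fun y hy hy0 =>
    ((h.integrable_trT Q).2 y hy hy0).trans (by rw [zero_mul, add_zero])
  refine ⟨h1, ?_⟩
  have h3 := C1.stat_aff h.sv.toSV0 x hr ((2 : ℝ)⁻¹ • Q) (p - (2 : ℝ)⁻¹ • Q x)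
  have hc := C1.continuous_gk d x r
  rw [vC, integral_map (measurable_id'.prodMk hm).aemeasurable (Continuous.aestronglyMeasurable (by fun_prop))] at h3
  rw [← integral_const_mul, ← sub_eq_zero, ← integral_sub h1 (h2.const_mul _), ← mul_zero (-r ^ 2), ← h3,
    ← integral_const_mul]
  refine integral_congr_ae (Eventually.of_forall fun y => ?_)
  have e : ((2 : ℝ)⁻¹ • Q) y + (p - (2 : ℝ)⁻¹ • Q x) = p + (2 : ℝ)⁻¹ • Q (y - x) := by
    rw [smul_apply, map_sub, smul_sub]; abel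
  simp only [e]
  simp only [trT, C1.trc_smul, smul_apply, inner_smul_right, inner_add_right (y - x), real_inner_comm (y - x)]
  field_simp
  ring

/-- `|⟪ν y, y - x⟫| ≤ K ‖y - x‖²` (from `exists_Zf_le` for `‖y‖ ≥ 1/2`; trivial for `‖y - x‖ ≥ 1/2`) -/
theorem height_le (h : Ctx d C ψ) : ∃ K : ℝ, 0 ≤ K ∧ ∀ x ∈ C, ‖x‖ = 1 → ∀ y ∈ C, y ≠ 0 →
    |⟪gradient ψ y, y - x⟫| ≤ K * ‖y - x‖ ^ 2 := by
  obtain ⟨K, hK0, hK⟩ := exists_Zf_le h.smc
  refine ⟨K + 2, by positivity, fun x hx hx1 y hy hy0 => ?_⟩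
  rcases le_total ‖y - x‖ (1 / 2) with h1 | h1
  · have a1 : 1 / 2 ≤ ‖y‖ := by linarith [norm_sub_norm_le x y, norm_sub_rev x y]
    have a2 := le_kf_mul h.smc hy hx
    have a3 : kf C ψ y ≤ K := csSup_le ⟨_, 0, h.smc.zero_mem, rfl⟩ fun _ ⟨z, hz, e⟩ => e ▸ hK y hy z hz
    rw [inner_sub_right, inner_grad_self h.smc hy, zero_sub, abs_neg, norm_sub_rev]
    nlinarith [mul_le_mul_of_nonneg_right a3 (sq_nonneg ‖x - y‖), sq_nonneg ‖x - y‖,
      mul_le_mul_of_nonneg_right a1 (abs_nonneg ⟪gradient ψ y, x⟫)]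
  · have a1 := abs_real_inner_le_norm (gradient ψ y) (y - x)
    rw [(eik h.smc hy hy0).norm_grad, one_mul] at a1
    nlinarith [mul_nonneg hK0 (sq_nonneg ‖y - x‖), norm_nonneg (y - x)]

/-- approximate identity -/
theorem tendsto_avg (h : Ctx d C ψ) {x : E} (hx : x ∈ C) (hx0 : x ≠ 0) {a : E → ℝ} (ha : Measurable a)
    {M : ℝ} (hM : ∀ y ∈ C, y ≠ 0 → |a y| ≤ M) (hc : Tendsto a (𝓝[C] x) (𝓝 (a x))) :
    Tendsto (fun r => ∫ y, gk d x r y * a y ∂ar d C) (𝓝[>] 0) (𝓝 (a x)) := by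
  obtain ⟨K, hK0, hK⟩ := h.moment_le 2
  have hb : ∀ y ∈ C, y ≠ 0 → |a y - a x| ≤ 2 * M := fun y hy hy0 => by
    linarith [abs_sub (a y) (a x), hM y hy hy0, hM x hx hx0]
  have hM0 : 0 ≤ M := (abs_nonneg _).trans (hM x hx hx0)
  have hi : ∀ r > 0, Integrable (fun y => gk d x r y * (a y - a x)) (ar d C) := fun r hr =>
    h.integrable_of_le x hr (ha.sub_const _) (b := 0) fun y hy hy0 => (hb y hy hy0).trans (by rw [zero_mul, add_zero])
  have h1 : Tendsto (fun r => ∫ y, gk d x r y * (a y - a x) ∂ar d C) (𝓝[>] 0) (𝓝 0) := by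
    refine NormedAddGroup.tendsto_nhds_zero.2 fun ε hε => ?_
    have hη : 0 < ε / 2 / (|Th d C| + 1) := by positivity
    obtain ⟨δ, hδ, hδ'⟩ := Metric.tendsto_nhdsWithin_nhds.1 hc _ hη
    have l1 : Tendsto (fun r : ℝ => 2 * M / δ ^ 2 * (K * r ^ 2)) (𝓝[>] 0) (𝓝 0) :=
      Tendsto.mono_left (Continuous.tendsto' (by fun_prop) _ _ (by simp)) nhdsWithin_le_nhds
    filter_upwards [l1.eventually (gt_mem_nhds (half_pos hε)), self_mem_nhdsWithin] with r hr (hr0 : 0 < r)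
    refine (norm_integral_le_of_norm_le (((h.integ x hr0).const_mul (ε / 2 / (|Th d C| + 1))).add
      ((hK x r hr0).1.const_mul (2 * M / δ ^ 2))) (h.ae_mem.mono fun y hy => ?_)).trans_lt ?_
    · rw [norm_mul, Real.norm_of_nonneg (C1.gk_pos d x hr0 y).le, Pi.add_apply, mul_left_comm, mul_comm (_ / _),
        ← mul_add]
      refine mul_le_mul_of_nonneg_left ?_ (C1.gk_pos d x hr0 y).le
      rcases lt_or_ge ‖y - x‖ δ with h2 | h2
      · exact le_add_of_le_of_nonneg (hδ' hy.1 (by rwa [dist_eq_norm])).le (by positivity)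
      · refine le_add_of_nonneg_of_le hη.le ((hb y hy.1 hy.2).trans ?_)
        rw [div_mul_eq_mul_div, le_div_iff₀ (by positivity)]
        gcongr
    · rw [integral_add' ((h.integ x hr0).const_mul _) ((hK x r hr0).1.const_mul _), integral_const_mul,
        integral_const_mul]
      have a1 : ε / 2 / (|Th d C| + 1) * th d (ar d C) x r ≤ ε / 2 := by
        rw [div_mul_eq_mul_div, div_le_iff₀ (by positivity)]
        exact mul_le_mul_of_nonneg_left (by linarith [h.upper x hr0, le_abs_self (Th d C)]) (half_pos hε).le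
      rw [th] at a1
      linarith [mul_le_mul_of_nonneg_left (hK x r hr0).2 (show 0 ≤ 2 * M / δ ^ 2 by positivity)]
  have h2 := h1.add ((h.one x hx hx0).mul_const (a x))
  rw [zero_add, one_mul] at h2
  refine h2.congr' (eventually_mem_nhdsWithin.mono fun r (hr : 0 < r) => ?_)
  beta_reduce
  rw [th, ← integral_mul_const, ← integral_add (hi r hr) ((h.integ x hr).mul_const _)]
  exact integral_congr_ae (Eventually.of_forall fun y => by ring)

end Ctx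

end Crest.Agent.R246.H1
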