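import Crest.Agent.R246.H1.Kf

/-!
# Row 246, block H1: semiconvexity and continuity of `log kf`
-/

set_option autoImplicit false
set_option linter.unusedSectionVars false

open MeasureTheory Metric Filter Topology Set Module Asymptotics
open scoped RealInnerProductSpace ENNReal ContDiff Real

noncomputable section

namespace Crest.Agent.R246.H1

variable {E : Type} [NormedAddCommGroup E] [InnerProductSpace ℝ E] [FiniteDimensional ℝ E]

/-- uniform first order Taylor estimate on a compact set of parameters.  Recipe: `cthickening ρ K ⊆ O` is compact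
(`IsCompact.exists_cthickening_subset_open`), `fderiv Φ` and `fderiv (fderiv Φ)` are bounded on it; mean value inequality twice on
the convex set `ball x₀ ρ × {q}`; `p` = Riesz representative of `fderiv Φ (x₀,q) ∘ inl`. -/
theorem unif_taylor {P : Type} [NormedAddCommGroup P] [NormedSpace ℝ P] [FiniteDimensional ℝ P]
    {Φ : E × P → ℝ} {O K : Set (E × P)} (hO : IsOpen O) (hΦ : ContDiffOn ℝ 2 Φ O) (hK : IsCompact K)
    (hKO : K ⊆ O) : ∃ M ρ : ℝ, 0 < ρ ∧ ∀ z ∈ K, ∃ p : E, ‖p‖ ≤ M ∧ ∀ x, ‖x - z.1‖ < ρ →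
      (x, z.2) ∈ O ∧ Φ z + ⟪p, x - z.1⟫ - M * ‖x - z.1‖ ^ 2 ≤ Φ (x, z.2) := by
  have := FiniteDimensional.proper_real (E × P)
  obtain ⟨ρ, hρ, hρO⟩ := hK.exists_cthickening_subset_open hO hKO
  have h1 : ContDiffOn ℝ 1 (fderiv ℝ Φ) O := hΦ.fderiv_of_isOpen hO le_rfl
  obtain ⟨M₁, hM₁⟩ := (hK.cthickening (r := ρ)).exists_bound_of_continuousOn (f := fderiv ℝ Φ)
    (h1.continuousOn.mono hρO)
  obtain ⟨M₂, hM₂⟩ := (hK.cthickening (r := ρ)).exists_bound_of_continuousOn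
    ((h1.continuousOn_fderiv_of_isOpen hO le_rfl).mono hρO)
  refine ⟨|M₁| + |M₂|, ρ, hρ, fun z hz => ⟨(InnerProductSpace.toDual ℝ E).symm
    (fderiv ℝ Φ z ∘L ContinuousLinearMap.inl ℝ E P), ?_, fun x hx => ?_⟩⟩
  · rw [LinearIsometryEquiv.norm_map]
    refine (ContinuousLinearMap.opNorm_comp_le _ _).trans ((mul_le_of_le_one_right (norm_nonneg _)
      (ContinuousLinearMap.norm_inl_le_one ℝ E P)).trans ?_)
    linarith [hM₁ z (self_subset_cthickening _ hz), le_abs_self M₁, abs_nonneg M₂]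
  have a0 : (x, z.2) - z = (x - z.1, 0) := by ext <;> simp
  have a1 : ‖(x, z.2) - z‖ = ‖x - z.1‖ := by simp [a0]
  have a2 : closedBall z ‖x - z.1‖ ⊆ cthickening ρ K :=
    (closedBall_subset_closedBall hx.le).trans (closedBall_subset_cthickening hz ρ)
  have a3 : (x, z.2) ∈ closedBall z ‖x - z.1‖ := mem_closedBall_iff_norm.2 a1.le
  have a4 := (convex_closedBall z ‖x - z.1‖).norm_image_sub_le_of_norm_fderiv_le' (𝕜 := ℝ) (f := Φ)
    (C := |M₂| * ‖x - z.1‖) (φ := fderiv ℝ Φ z)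
    (fun w hw => (hΦ.contDiffAt (hO.mem_nhds (hρO (a2 hw)))).differentiableAt two_ne_zero)
    (fun w hw => ((convex_closedBall z ‖x - z.1‖).norm_image_sub_le_of_norm_fderiv_le (𝕜 := ℝ) (f := fderiv ℝ Φ)
      (fun w hw => (h1.contDiffAt (hO.mem_nhds (hρO (a2 hw)))).differentiableAt one_ne_zero)
      (fun w hw => (hM₂ w (a2 hw)).trans (le_abs_self _)) (mem_closedBall_self (norm_nonneg _)) hw).trans
      (mul_le_mul_of_nonneg_left (mem_closedBall_iff_norm.1 hw) (abs_nonneg _)))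
    (mem_closedBall_self (norm_nonneg _)) a3
  refine ⟨hρO (a2 a3), ?_⟩
  rw [a1, a0, Real.norm_eq_abs, abs_le] at a4
  rw [InnerProductSpace.toDual_symm_apply, ContinuousLinearMap.comp_apply, ContinuousLinearMap.inl_apply]
  nlinarith [a4.1, mul_nonneg (abs_nonneg M₁) (sq_nonneg ‖x - z.1‖)]

variable {C : Set E} {ψ : E → ℝ}

/-- `Φ (x, (t, e)) = log 2 + log ‖x‖²/2 + log N²/2 - log ‖B‖²` on `O = {x ≠ 0, N ≠ 0, B ≠ 0}`,
`K = {x ∈ C, ‖x‖ = 1, t ∈ [0,2], ‖e‖ = 1, 1 ≤ ‖B‖, a/4 ≤ |N|}`; for `y₀ = x₀ + t e` from `exists_lt_Zf`,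
`Φ (x, (t, e)) = log (Zf x (x + t B))`. -/
theorem semi_log_kf (h : SMC C ψ) {a : ℝ} (ha : 0 < a) (hk : ∀ x ∈ C, x ≠ 0 → a ≤ kf C ψ x) :
    Semi C fun x => Real.log (kf C ψ x) := by
  obtain ⟨B, N, ρ, hB, hN, hρ, H⟩ := exists_BN h
  have hs : ContDiff ℝ ∞ fun z : E × ℝ × E => (z.2.1, z.1, z.2.2) := by fun_prop
  have cB := (hB.comp hs).continuous
  have cN := (hN.comp hs).continuous
  obtain ⟨M, ρ', hρ', HT⟩ := unif_taylor
    (Φ := fun z : E × ℝ × E => Real.log (2 * ‖z.1‖ * |N (z.2.1, z.1, z.2.2)| / ‖B (z.2.1, z.1, z.2.2)‖ ^ 2))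
    (O := {z | z.1 ≠ 0 ∧ N (z.2.1, z.1, z.2.2) ≠ 0 ∧ B (z.2.1, z.1, z.2.2) ≠ 0})
    (K := (sphere 0 1 ×ˢ Icc 0 2 ×ˢ sphere 0 1) ∩ {z | a / 4 ≤ |N (z.2.1, z.1, z.2.2)| ∧ 1 ≤ ‖B (z.2.1, z.1, z.2.2)‖})
    ((isOpen_ne_fun continuous_fst continuous_const).inter ((isOpen_ne_fun cN continuous_const).inter
      (isOpen_ne_fun cB continuous_const)))
    (fun z hz => by
      have a1 := norm_pos_iff.2 hz.1
      have a2 := abs_pos.2 hz.2.1
      have a3 := norm_pos_iff.2 hz.2.2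
      exact ((((contDiffAt_const.mul (contDiffAt_fst.norm ℝ hz.1)).mul
        (((hN.comp hs).contDiffAt.of_le two_le_infty).abs hz.2.1)).div
        ((((hB.comp hs).contDiffAt.of_le two_le_infty).norm ℝ hz.2.2).pow 2) (pow_pos a3 2).ne').log
        (div_pos (mul_pos (mul_pos two_pos a1) a2) (pow_pos a3 2)).ne').contDiffWithinAt)
    (((isCompact_sphere 0 1).prod (isCompact_Icc.prod (isCompact_sphere 0 1))).inter_right
      ((isClosed_le continuous_const cN.abs).inter (isClosed_le continuous_const cB.norm)))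
    (fun z hz => ⟨by rintro h0; simpa [h0] using hz.1.1, abs_pos.1 (lt_of_lt_of_le (by positivity) hz.2.1),
      norm_pos_iff.1 (one_pos.trans_le hz.2.2)⟩)
  refine ⟨M, min ρ ρ', lt_min hρ hρ', fun x hx hx1 η hη => ?_⟩
  have hka := hk x hx (by rintro rfl; simp at hx1)
  have hk0 := ha.trans_le hka
  obtain ⟨y, hy, hy1, hne, hZ⟩ := exists_lt_Zf h hx hx1 (κ := max (kf C ψ x * Real.exp (-η)) (kf C ψ x / 2))
    (le_max_of_le_right (by positivity)) (max_lt (mul_lt_of_lt_one_right hk0 (Real.exp_lt_one_iff.2 (neg_lt_zero.2 hη)))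
      (half_lt_self hk0))
  obtain ⟨t, e, ht, ht2, he, rfl⟩ := link_decomp hx1 hy1 hne
  obtain ⟨a1, a2⟩ := H x hx hx1 t e hy hy1
  have a3 : ∀ z ∈ C, ‖z - x‖ < ρ → Zf ψ z (z + t • B (t, z, e)) = 2 * ‖z‖ * |N (t, z, e)| / ‖B (t, z, e)‖ ^ 2 :=
    fun z hz hzx => by
      rw [Zf, inner_add_right, inner_grad_self h hz, add_sub_cancel_left, norm_smul, inner_smul_right,
        (a2 z hz hzx).2, zero_add, ← mul_assoc t, abs_mul, abs_mul_self, Real.norm_of_nonneg ht.le, mul_pow,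
        ← mul_div_mul_left _ (‖B (t, z, e)‖ ^ 2) (pow_pos ht 2).ne']
      ring
  have a4 : B (t, x, e) = e := smul_right_injective E ht.ne' a1
  have a5 := a3 x hx (by simpa using hρ)
  rw [a1] at a5
  obtain ⟨p, hp, hp'⟩ := HT (x, t, e) ⟨⟨mem_sphere_zero_iff_norm.2 hx1, ⟨ht.le, ht2⟩, mem_sphere_zero_iff_norm.2 he⟩,
    by
      rw [a5, a4, hx1, he] at hZ
      linarith [(max_lt_iff.1 hZ).2], by rw [a4, he]⟩
  refine ⟨p, hp, fun z hz hzx => ?_⟩
  obtain ⟨⟨b1, b2, b3⟩, b4⟩ := hp' z (lt_min_iff.1 hzx).2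
  have b5 := Real.log_le_log (by positivity) (max_lt_iff.1 hZ).1.le
  rw [Real.log_mul hk0.ne' (Real.exp_pos _).ne', Real.log_exp, a5] at b5
  have b6 := Zf_le_kf h hz (a2 z hz (lt_min_iff.1 hzx).1).1
  rw [a3 z hz (lt_min_iff.1 hzx).1] at b6
  have b7 := Real.log_le_log (div_pos (mul_pos (mul_pos two_pos (norm_pos_iff.2 b1)) (abs_pos.2 b2))
    (pow_pos (norm_pos_iff.2 b3) 2)) b6
  linarith

/-- semiconvex and homogeneous implies continuous (Lipschitz on the link, compose with `y ↦ ‖y‖⁻¹ • y`) -/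
theorem Semi.continuousOn {g : E → ℝ} (hC : CCone C) (hg : Semi C g) (h0 : Hom0 g) :
    ContinuousOn g (C \ {0}) := by
  obtain ⟨K, ρ, hρ, H⟩ := hg
  have h1 : ∀ x ∈ C, ‖x‖ = 1 → ∀ y ∈ C, ‖y - x‖ < ρ → g x - g y ≤ K * ‖y - x‖ + K * ‖y - x‖ ^ 2 :=
    fun x hx hx1 y hy hyx => le_of_forall_pos_le_add fun η hη => by
      obtain ⟨p, hp, hp'⟩ := H x hx hx1 η hη
      linarith [hp' y hy hyx, neg_abs_le ⟪p, y - x⟫, abs_real_inner_le_norm p (y - x),
        mul_le_mul_of_nonneg_right hp (norm_nonneg (y - x))]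
  intro x hx
  have hN : ∀ y ∈ C \ {0}, ‖y‖⁻¹ • y ∈ C ∧ ‖‖y‖⁻¹ • y‖ = 1 ∧ g (‖y‖⁻¹ • y) = g y := fun y hy =>
    ⟨hC.smul_mem _ (inv_pos.2 (norm_pos_iff.2 hy.2)) y hy.1, norm_smul_inv_norm hy.2,
      h0 _ (inv_pos.2 (norm_pos_iff.2 hy.2)) y⟩
  have h2 : Tendsto (fun y : E => ‖‖y‖⁻¹ • y - ‖x‖⁻¹ • x‖) (𝓝[C \ {0}] x) (𝓝 0) :=
    tendsto_iff_norm_sub_tendsto_zero.1 (((continuous_norm.continuousAt.inv₀ (norm_ne_zero_iff.2 hx.2)).smul
      continuousAt_id).tendsto.mono_left nhdsWithin_le_nhds)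
  refine tendsto_iff_norm_sub_tendsto_zero.2 (squeeze_zero' (Eventually.of_forall fun _ => norm_nonneg _) ?_
    (by simpa using (h2.const_mul K).add ((h2.pow 2).const_mul K)))
  filter_upwards [self_mem_nhdsWithin, h2.eventually (gt_mem_nhds hρ)] with y hy hyx
  have a1 := h1 _ (hN x hx).1 (hN x hx).2.1 _ (hN y hy).1 hyx
  have a2 := h1 _ (hN y hy).1 (hN y hy).2.1 _ (hN x hx).1 (by rwa [norm_sub_rev])
  rw [norm_sub_rev] at a2
  rw [(hN x hx).2.2, (hN y hy).2.2] at a1 a2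
  exact abs_sub_le_iff.2 ⟨a2, a1⟩

end Crest.Agent.R246.H1
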